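import Vale.Agent.P223G.Defs

/-!
# P223G: the potential and the averaging over a geometric grid (helper34)
-/

open Finset
open Vale.Agent.P223A

noncomputable section

namespace Vale.Agent.P223G

variable {i : ℕ} {t : Fin i → ℝ} {r y G H Z G' H' Z' τ ϑ c ρ : ℝ}

theorem nt_snoc : nt ρ (Fin.snoc t τ : Fin (i + 1) → ℝ) = nt ρ t + if |τ| ≤ ρ then 1 else 0 := by
  simp only [nt, card_filter, Fin.sum_univ_castSucc, Fin.snoc_castSucc, Fin.snoc_last]

theorem kk_snoc : kk ρ (Fin.snoc t τ : Fin (i + 1) → ℝ) =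
    kk ρ t + if |τ| ≤ ρ ∧ ∀ j, t j ≤ ρ then 1 else 0 := by
  simp only [kk, card_filter, Fin.sum_univ_castSucc, Fin.snoc_castSucc, Fin.snoc_last,
    Fin.forall_fin_succ', Fin.castSucc_lt_castSucc_iff, Fin.castSucc_lt_last, lt_self_iff_false,
    (Fin.castSucc_lt_last _).not_gt, IsEmpty.forall_iff, and_true, forall_const]

/-- the potential -/
def pot (r y G H Z : ℝ) {i : ℕ} (t : Fin i → ℝ) : ℝ :=
  y ^ kk 2 t * (if ∀ j, t j ≤ 2 then G else H) + y ^ nt r t * Z

theorem pot_step (hy : 1 ≤ y) (h0 : 0 ≤ H') (hH : 2 * H' ≤ G') (hZ : 0 ≤ Z') (hr : 3 ≤ r) (hc : 1 ≤ c)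
    (h : |τ - cl (r + 1) ϑ| ≤ 1 / 2) :
    (if |ϑ| ≤ r + 1 + 6 then c else 1) * pot r y G' H' Z' (Fin.snoc t τ : Fin (i + 1) → ℝ) ≤
      y ^ kk 2 t * (if ∀ j, t j ≤ 2 then G' * (1 - (if 5 / 2 < ϑ then 1 else 0) / 2 +
        (if |ϑ| ≤ r + 7 then c else 0) + y * if |ϑ| ≤ 5 / 2 then c else 0) else
          H' * (1 + if |ϑ| ≤ r + 7 then c else 0)) +
        y ^ nt r t * (Z' * (1 + y * if |ϑ| ≤ r + 7 then c else 0)) := by
  have a1 : |τ| ≤ 2 → |ϑ| ≤ 5 / 2 := fun k => by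
    simp only [cl, abs_le, max_def, min_def] at *
    split_ifs at h <;> constructor <;> linarith
  have a2 : |τ| ≤ r → |ϑ| ≤ r + 7 := fun k => by
    simp only [cl, abs_le, max_def, min_def] at *
    split_ifs at h <;> constructor <;> linarith
  have a3 : 5 / 2 < ϑ → ¬τ ≤ 2 := fun k => by
    simp only [cl, abs_le, max_def, min_def, not_le] at *
    split_ifs at h <;> linarith
  have a4 : |ϑ| ≤ 5 / 2 → |ϑ| ≤ r + 7 := fun k => by linarith
  have a5 : |ϑ| ≤ 5 / 2 → ¬5 / 2 < ϑ := fun k => (le_of_abs_le k).not_gt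
  have y0 : 0 ≤ y := by linarith
  have c0 : 0 ≤ c := by linarith
  have yc : 0 ≤ y * c := mul_nonneg y0 c0
  rw [pot, kk_snoc, nt_snoc, pow_add, pow_add, mul_add, add_assoc r, show (1 : ℝ) + 6 = 7 by norm_num,
    mul_assoc, mul_assoc, mul_left_comm, mul_left_comm _ (y ^ nt r t)]
  refine add_le_add (mul_le_mul_of_nonneg_left ?_ (by positivity))
    (mul_le_mul_of_nonneg_left ?_ (by positivity))
  · simp only [Fin.forall_fin_succ', Fin.snoc_castSucc, Fin.snoc_last]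
    by_cases u : ∀ j, t j ≤ 2
    · simp only [u, implies_true, and_true, true_and, if_true]
      by_cases k : |ϑ| ≤ 5 / 2
      · simp only [k, a4 k, a5 k, if_true, if_false]
        split_ifs <;> nlinarith [mul_nonneg yc h0, mul_nonneg c0 h0, mul_le_mul_of_nonneg_left hH yc,
          mul_le_mul_of_nonneg_left hH c0]
      · simp only [k, mt a1 k, if_false]
        by_cases q : 5 / 2 < ϑ
        · simp only [q, a3 q, if_true, if_false]
          split_ifs <;> nlinarith [mul_nonneg c0 h0, mul_le_mul_of_nonneg_left hH c0]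
        · simp only [q, if_false]
          split_ifs <;> nlinarith [mul_nonneg c0 h0, mul_le_mul_of_nonneg_left hH c0]
    · simp only [u, and_false, false_and, if_false]
      split_ifs <;> nlinarith
  · by_cases k : |ϑ| ≤ r + 7
    · simp only [k, if_true]
      split_ifs <;> nlinarith [mul_nonneg c0 hZ, mul_le_mul_of_nonneg_left hy (mul_nonneg c0 hZ)]
    · simp only [k, mt a2 k, if_false]
      simp

/-- the averaged potential does not increase -/
theorem avg {ι : Type} (S : Finset ι) {w τ ϑ c M' : ι → ℝ} {M W η α κ : ℝ} (hy : 1 ≤ y)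
    (h0 : 0 ≤ H') (hH : 2 * H' ≤ G') (hZ : 0 ≤ Z') (hr : 3 ≤ r) (hM : 0 ≤ M) (hw : ∀ k, 0 ≤ w k)
    (hc : ∀ k, 1 ≤ c k) (h : ∀ k, |τ k - cl (r + 1) (ϑ k)| ≤ 1 / 2)
    (hM' : ∀ k, M' k ≤ M * if |ϑ k| ≤ r + 1 + 6 then c k else 1) (eW : ∑ k ∈ S, w k = W)
    (hη : ∑ k ∈ S, w k * (if |ϑ k| ≤ r + 7 then c k else 0) ≤ η)
    (hα : ∑ k ∈ S, w k * (if |ϑ k| ≤ 5 / 2 then c k else 0) ≤ α)
    (hκ : κ ≤ ∑ k ∈ S, w k * if 5 / 2 < ϑ k then 1 else 0)
    (bG : (W - κ / 2 + η + y * α) * G' ≤ W * G) (bH : (W + η) * H' ≤ W * H)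
    (bZ : (W + y * η) * Z' ≤ W * Z) :
    ∑ k ∈ S, w k * (M' k * pot r y G' H' Z' (Fin.snoc t (τ k) : Fin (i + 1) → ℝ)) ≤
      W * (M * pot r y G H Z t) := by
  have y0 : 0 ≤ y := by linarith
  have G0 : 0 ≤ G' := by linarith
  refine (sum_le_sum fun k _ => mul_le_mul_of_nonneg_left ((mul_le_mul_of_nonneg_right (hM' k)
    (by rw [pot]; split_ifs <;> positivity)).trans ((mul_assoc _ _ _).trans_le
      (mul_le_mul_of_nonneg_left (pot_step hy h0 hH hZ hr (hc k) (h k)) hM))) (hw k)).trans ?_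
  simp only [mul_left_comm _ M, ← mul_sum]
  refine mul_le_mul_of_nonneg_left ?_ hM
  simp only [pot, mul_add (w _), mul_add W, mul_left_comm _ (y ^ _), sum_add_distrib, ← mul_sum]
  refine add_le_add (mul_le_mul_of_nonneg_left ?_ (by positivity))
    (mul_le_mul_of_nonneg_left (le_trans ?_ bZ) (by positivity))
  · split_ifs
    · refine le_trans ?_ bG
      simp only [mul_left_comm _ G', ← mul_sum, mul_comm _ G']
      refine mul_le_mul_of_nonneg_left ?_ G0
      simp only [mul_add, mul_sub, mul_one, sum_add_distrib, sum_sub_distrib, mul_left_comm _ y,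
        ← mul_div_assoc, ← mul_sum, ← sum_div, eW]
      linarith [mul_le_mul_of_nonneg_left hα y0]
    · refine le_trans ?_ bH
      simp only [mul_left_comm _ H', ← mul_sum, mul_comm _ H']
      refine mul_le_mul_of_nonneg_left ?_ h0
      simp only [mul_add, mul_one, sum_add_distrib, eW]
      linarith
  · simp only [mul_left_comm _ Z', ← mul_sum, mul_comm _ Z']
    refine mul_le_mul_of_nonneg_left ?_ hZ
    simp only [mul_add, mul_one, sum_add_distrib, mul_left_comm _ y, ← mul_sum, eW]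
    linarith [mul_le_mul_of_nonneg_left hη y0]

/-- the geometric grid -/
def gd (t₀ β : ℝ) (j : ℕ) : ℝ := t₀ * Real.exp (β * j)

/-- the weights -/
def wt (t₀ β : ℝ) (j : ℕ) : ℝ := gd t₀ β (j + 1) - gd t₀ β j

variable {t₀ β u ξ : ℝ}

theorem gd_succ (j : ℕ) : gd t₀ β (j + 1) = gd t₀ β j * Real.exp β := by
  rw [gd, gd, mul_assoc, ← Real.exp_add]; push_cast; ring_nf

theorem gd_ge (h0 : 0 < t₀) (b0 : 0 < β) (j : ℕ) : t₀ ≤ gd t₀ β j :=
  le_mul_of_one_le_right h0.le (Real.one_le_exp (by positivity))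

theorem exp_le (b0 : 0 < β) (b1 : β ≤ 1) : Real.exp β ≤ 1 + 2 * β := by
  have := Real.abs_exp_sub_one_le (x := β) (by rwa [abs_of_pos b0])
  rw [abs_of_pos b0] at this
  linarith [le_of_abs_le this]

theorem wt_bd (h0 : 0 < t₀) (b0 : 0 < β) (b1 : β ≤ 1) (j : ℕ) :
    0 ≤ wt t₀ β j ∧ wt t₀ β j ≤ 2 * β * gd t₀ β j := by
  have := gd_ge h0 b0 j
  rw [wt, gd_succ]
  constructor <;> nlinarith [Real.one_le_exp b0.le, exp_le b0 b1]

theorem sum_wt (m : ℕ) : ∑ j ∈ range m, wt t₀ β j = gd t₀ β m - t₀ := by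
  simp only [wt]; rw [sum_range_sub]; simp [gd]

theorem exists_gd (h0 : 0 < t₀) (b0 : 0 < β) (b1 : β ≤ 1 / 2) (hu : t₀ ≤ u) :
    ∃ m, u ≤ gd t₀ β m ∧ gd t₀ β m ≤ 2 * u := by
  have ex : ∃ m, u ≤ gd t₀ β m := by
    obtain ⟨m, hm⟩ := exists_nat_ge (u / (t₀ * β))
    rw [div_le_iff₀ (by positivity)] at hm
    exact ⟨m, by rw [gd]; nlinarith [Real.add_one_le_exp (β * m)]⟩
  classical
  refine ⟨Nat.find ex, Nat.find_spec ex, ?_⟩
  rcases e : Nat.find ex with _ | m
  · simp only [gd, Nat.cast_zero, mul_zero, Real.exp_zero]; linarith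
  · have := Nat.find_min ex (m := m) (by omega)
    rw [gd_succ]
    nlinarith [exp_le b0 (by linarith), gd_ge h0 b0 m]

theorem gd_eq (h0 : 0 < t₀) (b0 : 0 < β) (hu : 0 < u) (j : ℕ) :
    gd t₀ β j = u * Real.exp (-(β * (Real.log (u / t₀) / β - j))) := by
  rw [mul_sub, mul_div_cancel₀ _ b0.ne', neg_sub, Real.exp_sub, Real.exp_log (by positivity), gd]
  field_simp

theorem gd_win (h0 : 0 < t₀) (b0 : 0 < β) (hu : 0 < u) (hρ : β * ρ ≤ 1) {j : ℕ}
    (h : |Real.log (u / t₀) / β - j| ≤ ρ) : gd t₀ β j ≤ 3 * u := by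
  rw [gd_eq h0 b0 hu, mul_comm 3]
  refine mul_le_mul_of_nonneg_left ((Real.exp_le_exp.2 ?_).trans Real.exp_one_lt_three.le) hu.le
  nlinarith [neg_le_of_abs_le h]

/-- the cost of a window -/
theorem win (h0 : 0 < t₀) (b0 : 0 < β) (b1 : β ≤ 1) (hu : 0 < u) (ρ0 : 0 ≤ ρ) (hρ : β * ρ ≤ 1)
    (hξ : 0 ≤ ξ) (hc : 0 ≤ c) (m : ℕ) : ∑ j ∈ range m, wt t₀ β j *
      (if |Real.log (u / t₀) / β - j| ≤ ρ then c * √(1 + 12 * ξ / gd t₀ β j) else 0) ≤
        c * (2 * ρ + 1) * β * (6 * u + 12 * ξ) := by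
  set ϑ := Real.log (u / t₀) / β
  have k := sum_range_sub (fun j : ℕ => min (max (j : ℝ) (ϑ - ρ)) (ϑ + ρ + 1)) m
  have k0 : 0 ≤ c * β * (6 * u + 12 * ξ) := by positivity
  calc _ ≤ ∑ j ∈ range m, c * β * (6 * u + 12 * ξ) * (min (max ((j + 1 : ℕ) : ℝ) (ϑ - ρ)) (ϑ + ρ + 1) -
        min (max (j : ℝ) (ϑ - ρ)) (ϑ + ρ + 1)) := sum_le_sum fun j _ => by
        split_ifs with q
        · have g0 := h0.trans_le (gd_ge h0 b0 j)
          have q' := abs_le.1 q
          have s : √(1 + 12 * ξ / gd t₀ β j) ≤ 1 + 6 * ξ / gd t₀ β j :=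
            Real.sqrt_le_iff.2 ⟨by positivity, by
              rw [show 12 * ξ / gd t₀ β j = 2 * (6 * ξ / gd t₀ β j) by ring]
              nlinarith [sq_nonneg (6 * ξ / gd t₀ β j)]⟩
          rw [Nat.cast_succ, max_eq_left (by linarith), max_eq_left (by linarith),
            min_eq_left (by linarith), min_eq_left (by linarith), add_sub_cancel_left, mul_one,
            mul_left_comm, mul_assoc]
          refine mul_le_mul_of_nonneg_left ((mul_le_mul (wt_bd h0 b0 b1 j).2 s (by positivity)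
            (by positivity)).trans ?_) hc
          rw [mul_add, mul_one, mul_assoc (2 * β) _ (_ / _), mul_div_cancel₀ _ g0.ne']
          nlinarith [gd_win h0 b0 hu hρ q]
        · rw [mul_zero]
          exact mul_nonneg k0 (sub_nonneg.2 (min_le_min_right _ (max_le_max_right _ (by simp))))
    _ ≤ c * β * (6 * u + 12 * ξ) * (2 * ρ + 1) := by
        rw [← mul_sum, k]
        refine mul_le_mul_of_nonneg_left ?_ k0
        linarith [min_le_right (max (m : ℝ) (ϑ - ρ)) (ϑ + ρ + 1),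
          le_min (le_max_right ((0 : ℕ) : ℝ) (ϑ - ρ)) (show ϑ - ρ ≤ ϑ + ρ + 1 by linarith)]
    _ = _ := by ring

/-- the weight of the capture -/
theorem cap (h0 : 0 < t₀) (b0 : 0 < β) (b1 : β ≤ 1 / 10) (hu : 0 < u) (m : ℕ) :
    min (gd t₀ β m) (3 / 4 * u) - t₀ ≤
      ∑ j ∈ range m, wt t₀ β j * if 5 / 2 < Real.log (u / t₀) / β - j then 1 else 0 := by
  induction m with
  | zero => simp [gd]
  | succ m ih =>
    rw [sum_range_succ]
    have w0 := (wt_bd h0 b0 (by linarith) m).1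
    split_ifs with q
    · rw [mul_one, wt] at *
      rcases le_total (gd t₀ β m) (3 / 4 * u) with k | k
      · rw [min_eq_left k] at ih
        linarith [min_le_left (gd t₀ β (m + 1)) (3 / 4 * u)]
      · rw [min_eq_right k] at ih
        linarith [min_le_right (gd t₀ β (m + 1)) (3 / 4 * u)]
    · have k : 3 / 4 * u ≤ gd t₀ β m := by
        rw [gd_eq h0 b0 hu, mul_comm]
        refine mul_le_mul_of_nonneg_left (le_trans ?_ (Real.add_one_le_exp _)) hu.le
        nlinarith [not_lt.1 q]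
      rw [min_eq_right k] at ih
      linarith [min_le_right (gd t₀ β (m + 1)) (3 / 4 * u)]

end Vale.Agent.P223G
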