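import Vale.Agent.P223A.Defs
import Vale.Agent.P210G.Gid

/-!
# P223G: events; statements (helper34)
-/

open Set
open scoped ContDiff
open Vale.Agent.P366M Vale.Agent.P366M.Gr Vale.Agent.P366M.Y.C Vale.Agent.P210G
open Vale.Agent.P223Y Vale.Agent.P223F Vale.Agent.P223A

noncomputable section

namespace Vale.Agent.P223G

/-- the clamp -/
def cl (r t : ℝ) : ℝ := max (-r) (min r t)

/-- **EVT**: the deterministic event move, with the price `ζ` -/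
def EVT (n : ℕ) : Prop := ∀ γ > (0 : ℝ), ∃ C : ℝ, ∀ r ≥ (1 : ℝ), ∀ D : ℝ, ∃ L₁ : ℝ, ∀ L ≥ L₁,
  ∀ (X : Type) [Mf0 n X] (g : Fld n X) (v : Fin n → X → ℝ) (θ ζ : X → ℝ), Met g → CC ∞ v →
    Smooth θ → Smooth ζ → IsCompact {x | |θ x| ≤ r + 6} →
    (∀ x, |θ x| ≤ r + 6 → 1 ≤ ζ x ∧ ζ x ≤ D ∧ L * gn g θ x ≤ D ∧
      Lv g v ζ x ≤ ζ x - (L * gn g θ x) ^ 2) →
    ∃ (w : X → ℝ) (v' : Fin n → X → ℝ), Smooth w ∧ CC ∞ v' ∧ (∀ x, r + 3 ≤ θ x → w x = L * r) ∧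
      (∀ x, θ x ≤ -(r + 3) → w x = -(L * r)) ∧ (∀ x, |w x - L * cl r (θ x)| ≤ L / 2) ∧
      (∀ x, r + 6 < |θ x| → ∀ i, v' i x = v i x) ∧
      ∀ x, |θ x| ≤ r + 6 → Rv g v x - C + a2 g w x / 2 + γ * lw g w x - γ / 2 * Real.log (ζ x) ≤
        Rv (gb g 1 w) v' x

/-- **MOV**: the event move at all the translates of `K` of one colour class -/
def MOV (n : ℕ) : Prop := ∀ s > (0 : ℝ), ∃ C ≥ (1 : ℝ), ∀ r ≥ (1 : ℝ), ∀ E : ℝ, ∃ L₁ : ℝ, ∀ L ≥ L₁,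
  0 < L → ∀ (X Γ : Type) [Mf0 n X] [Group Γ] [MulAction Γ X] (g₀ : Fld n X), Deck X Γ → Met g₀ →
    (∀ (γ : Γ) x, g₀ (γ • x) = g₀ x) → ∀ (F : Fr Γ) (K D : Set X) (A : Set F.Ω) (δ : ℝ)
    (g : F.Ω → Fld n X) (v : F.Ω → Fin n → X → ℝ) (Q θ ζ : F.Ω → X → ℝ), IsCompact K →
    IsCompact D → K ⊆ interior D → IsClopen A → Sep Γ A D → 0 ≤ δ → δ ≤ 1 / 2 → Gs F g₀ g v Q →
    Tr θ → Tr ζ → (∀ o, Smooth (θ o)) → (∀ o, Smooth (ζ o)) →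
    (∀ o, ∀ x ∉ K, θ o x < -(r + 6)) →
    (∀ o x, |θ o x| ≤ r + 6 → 1 ≤ ζ o x ∧ ζ o x ≤ E ∧ L * gn (g o) (θ o) x ≤ E ∧
      Lv (g o) (v o) (ζ o) x ≤ ζ o x - (L * gn (g o) (θ o) x) ^ 2) →
    ∃ (g' : F.Ω → Fld n X) (v' : F.Ω → Fin n → X → ℝ) (Q' T : F.Ω → X → ℝ), Gs F g₀ g' v' Q' ∧
      Rs F T ∧ (∀ o u x, ip (g' o) u u x ≤ ip (g o) u u x) ∧ (∀ o x, gn (g' o) (T o) x ≤ 1 / L) ∧
      (∀ o, ∀ x ∉ Un Γ A K o, T o x = -r ∧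
        md s δ g₀ (g' o) (v' o) (Q' o) x = md s δ g₀ (g o) (v o) (Q o) x) ∧
      ∀ o ∈ A, ∀ x ∈ K, |T o x - cl r (θ o x)| ≤ 1 / 2 ∧ (r + 3 ≤ θ o x → T o x = r) ∧
        md s δ g₀ (g' o) (v' o) (Q' o) x ≤ md s δ g₀ (g o) (v o) (Q o) x *
          if |θ o x| ≤ r + 6 then C * √(ζ o x) else 1

/-- **PRICE** -/
def PRICE (n : ℕ) : Prop := ∀ (X Γ : Type) [Mf0 n X] [Group Γ] [MulAction Γ X], Deck X Γ →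
  ∀ (F : Fr Γ) (g : F.Ω → Fld n X) (v : F.Ω → Fin n → X → ℝ) (p : F.Ω → X → ℝ) (K : Set X),
    Inv Γ g → Tr g → (∀ o, Met (g o)) → (∀ i, Inv Γ fun o => v o i) → (∀ i, Tr fun o => v o i) →
    (∀ o, CC ∞ (v o)) → Tr p → (∀ o, Smooth (p o)) → IsCompact K → Cs p K → (∀ o x, 0 ≤ p o x) →
    (∀ o x, ∑ᶠ γ : Γ, lb γ p o x ≤ 1) → ∃ ξ : F.Ω → X → ℝ, Tr ξ ∧ (∀ o, Smooth (ξ o)) ∧
      (∀ o, ∀ x ∈ K, 0 ≤ ξ o x ∧ ξ o x ≤ 1 ∧ Lv (g o) (v o) (ξ o) x ≤ ξ o x - p o x) ∧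
      ∀ o x, ∑ᶠ γ : Γ, lb γ (fun o => K.indicator (ξ o)) o x ≤ 2

end Vale.Agent.P223G
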