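import Vale.Agent.P210C.Abs
import Vale.Agent.P210G.Defs

/-!
# P223G: linear equations with a drift on closed manifolds (helper34)
-/

open Metric Filter Topology Set
open scoped ContDiff
open Vale.Agent.P366.Stmt (E)
open Vale.Agent.P366M Vale.Agent.P366M.An Vale.Agent.P366M.Gr Vale.Agent.P366M.Y.C
open Vale.Agent.P272.K.LIN (Jet jet RSm CkFn Cov)
open Vale.Agent.P366C (Aq Ar ar jc Sol Bl In j1 co co_bd Good Lop Lop_bij Lop_apply in_symm
  sol_smooth)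
open Vale.Agent.P210G

set_option maxSynthPendingDepth 3

noncomputable section

namespace Vale.Agent.P223G

variable {n : ℕ} {X : Type} [Mf0 n X] {g : Fld n X} {v : Fin n → X → ℝ} {c p u : X → ℝ} {x : X}

attribute [local instance] rsm

theorem Lv_max (hg : Met g) (hu : CAt 2 u x) (h : IsLocalMax u x) : Lv g v u x ≤ 0 := by
  simpa [Lv, iv, df, pd_of_isLocalMax h] using hg.lap_nonpos hu h

/-- **the linear equation** -/
theorem linV [CompactSpace X] (hg : Met g) (hv : CC ∞ v) (hc : Smooth c) (c0 : ∀ x, 0 < c x)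
    (hp : Smooth p) : ∃ u, Smooth u ∧ ∀ x, Lv g v u x = c x * u x - p x := by
  obtain ⟨𝒞, -, -⟩ := Cov.exists_cov (E n) X ch (chart_mem_atlas _) mem_ch (fun _ => 1)
    (fun _ => one_pos) fun x y _ => mem_tgt (ch_mem x) y
  have he : ∀ i, 𝒞.e i ∈ At X := fun i => mem_At (𝒞.mem i)
  have hf : Smooth (fun _ : X => (0 : ℝ)) := cd_const
  have sY := cv_sh hg le_rfl hv
  have sq : Smooth fun x => p x / c x := CD.div hp hc fun x => (c0 x).ne'
  let A : Fin 𝒞.N → Ar (E n) → Jet (E n) →L[ℝ] ℝ := fun i q => (loc (𝒞.e i) c q.2.1)⁻¹ •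
    (Aq (rep (𝒞.e i) g) (loc (𝒞.e i) fun _ => 0) (q.2.1, 0) -
      ∑ j, repV (𝒞.e i) (sh g v) j q.2.1 • j1 j)
  let R : Fin 𝒞.N → Ar (E n) → ℝ := fun i q => -loc (𝒞.e i) (fun x => p x / c x) q.2.1
  have hA : ∀ i, ContDiff ℝ ∞ (A i) := fun i =>
    (((hc _ (he i)).comp contDiff_snd.fst).inv fun _ => (c0 _).ne').smul
      (((P366C.sm_Aq (hg.rep (he i)) (hf _ (he i))).comp (contDiff_snd.fst.prodMk contDiff_const)).sub
        (ContDiff.sum fun j _ => ((sY _ (he i) j).comp contDiff_snd.fst).smul contDiff_const))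
  have hR : ∀ i, ContDiff ℝ ∞ (R i) := fun i => ((sq _ (he i)).comp contDiff_snd.fst).neg
  have ell : ∀ i q, A i q (1, 0, 0) = 0 ∧ ∀ ξ : E n →L[ℝ] ℝ, ξ ≠ 0 →
      0 < A i q (0, 0, ξ.smulRight ξ) := fun i q => by
    obtain ⟨a, b⟩ := P366C.Aq_ell (φ := loc (𝒞.e i) fun _ => 0) (hg.rep (he i)) (q.2.1, 0)
    refine ⟨by simp [A, a, j1], fun ξ k => ?_⟩
    simpa [A, j1, loc_apply] using mul_pos (inv_pos.2 (c0 ((𝒞.e i).symm q.2.1))) (b ξ k)
  have eA : ∀ σ (a : ℝ × (E n →L[ℝ] ℝ)) u i y, CAt 2 u ((𝒞.e i).symm y) →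
      A i (σ, y, a) (jet (loc (𝒞.e i) u) y) = Lv g v u ((𝒞.e i).symm y) / c ((𝒞.e i).symm y) := by
    intro σ a u i y hu
    have k := Aq_rep (u := fun _ => 0) hg (he i) hf hf.diff hu
    have k0 : fderiv ℝ (loc (𝒞.e i) fun _ : X => (0 : ℝ)) y = 0 := fderiv_const_apply 0
    have k1 : Lm g (fun _ => 0) (fun _ => 0) u ((𝒞.e i).symm y) = lap g u ((𝒞.e i).symm y) := by
      have : gb g 1 (fun _ => 0) = g := by funext y i j; simp [gb, pd_const]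
      simp [Lm, this, ww, ip, pd_const, hg.lap_eq_tr hu]
    have k2 := dot_rep (he i) (fun j => pd j u) (sh g v) y
    simp only [← pd_rep (he i) (diff2 hu), P366Z.pd_eq ((diff2 hu).lc (he i))] at k2
    rw [k0, k1] at k
    rw [Lv, iv_sy hg, iv_eq_ev, ev, div_eq_inv_mul]
    simp only [A, _root_.smul_apply, _root_.sub_apply, _root_.sum_apply,
      smul_eq_mul, k, df, ← k2]
    congr 2
    exact Finset.sum_congr rfl fun j _ => mul_comm _ _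
  have h0 : (0 : ℝ) < 1 / 2 := by norm_num
  have h1 : (1 / 2 : ℝ) < 1 := by norm_num
  have gd : Good 𝒞 (1 / 2) (co 𝒞 A 0 0) := by
    obtain ⟨S, -, hS⟩ := co_bd 𝒞 h0 h1.le (fun i => (hA i).of_le one_le_oo) 0
    refine ⟨fun u hu i k x hi hk => ?_, S, (hS 0 ⟨le_rfl, zero_le_one⟩ 0 (by simp)).1 (by simp)⟩
    have u2 := cd_of_ck two_le_oo hu
    refine (eA _ _ u i _ u2.contDiffAt).trans (.trans ?_ (eA _ _ u k _ u2.contDiffAt).symm)
    rw [(𝒞.e i).left_inv hi.1, (𝒞.e k).left_inv hk.1]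
  obtain ⟨w, hw⟩ := (Lop_bij 𝒞 h0 h1 gd (fun i y _ => ell i _) one_pos).2
    (𝒞.ofCk h0 h1.le (fun x => p x / c x) fun e k x _ => ((sq e (mem_At k)).of_le one_le_oo).contDiffAt)
  have u2 := cd_of_ck two_le_oo (𝒞.fn_ck w)
  have eq : ∀ i, ∀ y ∈ Bl 𝒞 i, Lv g v (𝒞.fn w) ((𝒞.e i).symm y) / c ((𝒞.e i).symm y) -
      𝒞.fn w ((𝒞.e i).symm y) = -(p ((𝒞.e i).symm y) / c ((𝒞.e i).symm y)) := fun i y hy => by
    have e3 : 1 * 𝒞.fn w ((𝒞.e i).symm y) - Lop 𝒞 h0 (co 𝒞 A 0 0) w ((𝒞.e i).symm y) =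
        p ((𝒞.e i).symm y) / c ((𝒞.e i).symm y) := congrArg (fun f => f ((𝒞.e i).symm y)) hw
    rw [Lop_apply 𝒞 h0 gd _ (in_symm 𝒞 hy), (𝒞.η_symm hy).2.1] at e3
    have e4 := eA 0 (0, 0) _ i y u2.contDiffAt
    change _ - A i (0, y, 0, 0) (jet (loc (𝒞.e i) (𝒞.fn w)) y) = _ at e3
    linarith
  refine ⟨_, cd_of_ck le_rfl (sol_smooth 𝒞 h0 h1 hA hR ell (l := 1) (σ := 1) (v := w)
    fun i y hy => ?_), fun x => ?_⟩
  · have e4 := eA 1 (ar 𝒞 1 (𝒞.fn w) i y).2.2 _ i y u2.contDiffAt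
    change A i (1, y, (ar 𝒞 1 (𝒞.fn w) i y).2.2) (jet (loc (𝒞.e i) (𝒞.fn w)) y) - _ =
      1 * -(p ((𝒞.e i).symm y) / c ((𝒞.e i).symm y))
    linarith [eq i y hy]
  · have k := eq _ _ (P366C.in_idx 𝒞 x).2
    rw [(𝒞.e _).left_inv (P366C.in_idx 𝒞 x).1] at k
    have := c0 x
    field_simp at k
    linarith

end Vale.Agent.P223G
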