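import Vale.Agent.P223G.Rnd
import Vale.Agent.P223Y.Mov

/-!
# P223G: the rounds of the painting (helper34)
-/

open MeasureTheory Finset
open Vale.Agent.P366M Vale.Agent.P223Y Vale.Agent.P223F Vale.Agent.P223A

noncomputable section

namespace Vale.Agent.P223G

variable {i N : ℕ} {t : Fin i → ℝ} {r y G H Z G' H' Z' t₀ β : ℝ}

theorem avg2 (S : Finset (Fin N)) (m : ℕ) {a ξ : Fin N → ℝ} {τ M' : Fin N × ℕ → ℝ} {C M W κ : ℝ}
    (h0 : 0 < t₀) (b0 : 0 < β) (b1 : β * (r + 7) ≤ 1 / 2) (hr : 3 ≤ r) (C1 : 1 ≤ C)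
    (a0 : ∀ c, 0 ≤ a c) (a1 : ∑ c, a c = 1) (ξ0 : ∀ c, 0 ≤ ξ c) (ξ1 : ∑ c, ξ c ≤ 2)
    (tN : N * t₀ = 1 / 8) (eW : S.card * (gd t₀ β m - t₀) = W)
    (hκ : κ = 0 ∨ κ = 1 / 2 ∧ S = univ ∧ 1 ≤ gd t₀ β m) (hy : 1 ≤ y) (H0 : 0 ≤ H')
    (hH : 2 * H' ≤ G') (hZ : 0 ≤ Z') (hM : 0 ≤ M)
    (h : ∀ k, |τ k - cl (r + 1) (th t₀ β (a k.1) k.2)| ≤ 1 / 2)
    (hM' : ∀ k, M' k ≤ M * if |th t₀ β (a k.1) k.2| ≤ r + 1 + 6 then
      C * √(1 + 12 * ξ k.1 / gd t₀ β k.2) else 1)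
    (bG : (W - κ / 2 + 31 * C * (2 * r + 15) * β + y * (186 * C * β)) * G' ≤ W * G)
    (bH : (W + 31 * C * (2 * r + 15) * β) * H' ≤ W * H)
    (bZ : (W + y * (31 * C * (2 * r + 15) * β)) * Z' ≤ W * Z) :
    ∑ k ∈ S ×ˢ range m, wt t₀ β k.2 * (M' k * pot r y G' H' Z' (Fin.snoc t (τ k) : Fin (i + 1) → ℝ)) ≤
      W * (M * pot r y G H Z t) := by
  have b2 : β ≤ 1 / 10 := by nlinarith
  have u0 : ∀ c, 0 < a c + t₀ / 4 := fun c => by linarith [a0 c]
  have g0 := fun j => h0.trans_le (gd_ge h0 b0 j)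
  have w0 := fun j => (wt_bd h0 b0 (by linarith) j).1
  have w : ∀ ρ ≥ (0 : ℝ), β * ρ ≤ 1 → ∑ k ∈ S ×ˢ range m, wt t₀ β k.2 * (if |th t₀ β (a k.1) k.2| ≤ ρ
      then C * √(1 + 12 * ξ k.1 / gd t₀ β k.2) else 0) ≤ 31 * C * (2 * ρ + 1) * β := fun ρ ρ0 ρ1 => by
    rw [sum_product]
    refine (sum_le_sum fun c _ => win h0 b0 (by linarith) (u0 c) ρ0 ρ1 (ξ0 c) (by linarith) m).trans
      ((sum_le_sum_of_subset_of_nonneg (subset_univ S) fun c _ _ => by
        have := u0 c; have := ξ0 c; positivity).trans ?_)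
    simp only [← mul_sum, sum_add_distrib, a1, sum_const, card_univ, Fintype.card_fin, nsmul_eq_mul]
    have : 0 ≤ C * (2 * ρ + 1) * β := by positivity
    nlinarith
  refine avg _ hy H0 hH hZ hr hM (fun k => w0 k.2) (fun k => one_le_mul_of_one_le_of_one_le C1
    (Real.one_le_sqrt.2 (le_add_of_nonneg_right (by have := ξ0 k.1; have := g0 k.2; positivity))))
    h hM' ?_ ((w _ (by linarith) (by linarith)).trans_eq (by ring))
    ((w _ (by norm_num) (by linarith)).trans_eq (by ring)) ?_ bG bH bZ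
  · simp only [sum_product, sum_wt, sum_const, nsmul_eq_mul, eW]
  · rcases hκ with rfl | ⟨rfl, rfl, k⟩
    · exact sum_nonneg fun k _ => mul_nonneg (w0 _) (by split_ifs <;> norm_num)
    · rw [sum_product]
      refine le_trans ?_ (sum_le_sum (f := fun c => 3 / 4 * a c - t₀) fun c _ => le_trans
        (sub_le_sub_right (le_min ?_ (by linarith)) _) (cap h0 b0 b2 (u0 c) m))
      swap
      · linarith [(single_le_sum (fun c _ => a0 c) (mem_univ c)).trans_eq a1]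
      simp only [← mul_sum, sum_sub_distrib, a1, sum_const, card_univ, Fintype.card_fin, nsmul_eq_mul]
      linarith

theorem pot_nonneg (hy : 0 ≤ y) (hG : 0 ≤ G) (hH : 0 ≤ H) (hZ : 0 ≤ Z) : 0 ≤ pot r y G H Z t := by
  rw [pot]; split_ifs <;> positivity

theorem th_ge {a : ℝ} {j m : ℕ} (h0 : 0 < t₀) (b0 : 0 < β) (b1 : β * r ≤ 1 / 2) (hj : j ≤ m)
    (hm : gd t₀ β m ≤ 4 * t₀) (ha : 8 * t₀ ≤ a) : r ≤ th t₀ β a j := by
  by_contra q
  have k : gd t₀ β j ≤ gd t₀ β m := by unfold gd; gcongr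
  rw [gd_eq h0 b0 (u := a + t₀ / 4) (by linarith)] at k
  have := Real.add_one_le_exp (-(β * th t₀ β a j))
  rw [th] at q this
  nlinarith [mul_lt_mul_of_pos_left (not_le.1 q) b0]

/-- the schedule -/
theorem sched (N0 : (1 : ℝ) ≤ N) : ∃ (N₁ : ℕ) (G : ℕ → ℝ), G 0 = 2 ∧ (∀ i ≤ N₁ + N, 2 ≤ G i) ∧
    ∀ t₀ > (0 : ℝ), ∀ β > (0 : ℝ), β ≤ 1 / 2 → N * t₀ = 1 / 8 → ∀ i < N₁ + N,
      ∃ (U : Finset (Fin N)) (l : ℕ) (W κ : ℝ), U.card * (gd t₀ β l - t₀) = W ∧ 1 ≤ 8 * N * W ∧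
        (κ = 0 ∨ κ = 1 / 2 ∧ U = univ ∧ 1 ≤ gd t₀ β l) ∧
        (W - κ / 2 + 1 / 8) * G (i + 1) ≤ W * G i ∧
        ∀ c : Fin N, N₁ + c = i → U = {c} ∧ gd t₀ β l ≤ 4 * t₀ := by
  obtain ⟨q, q0, q1, qN⟩ : ∃ q > (0 : ℝ), q < 1 ∧ 16 * N * (1 - q) = 1 :=
    ⟨1 - 1 / (16 * N), sub_pos.2 ((div_lt_one (by positivity)).2 (by linarith)),
      sub_lt_self _ (by positivity), by field_simp; ring⟩
  obtain ⟨N₁, hN⟩ := exists_pow_lt_of_lt_one (x := 1 / (1 + N : ℝ) ^ N) (by positivity) q1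
  rw [lt_div_iff₀ (by positivity)] at hN
  obtain ⟨G, G0, G1, G2, G3, G4⟩ : ∃ G : ℕ → ℝ, G 0 = 2 ∧ (∀ i ≤ N₁ + N, 2 ≤ G i) ∧ (∀ i, 0 ≤ G i) ∧
      (∀ i < N₁, G i = q * G (i + 1)) ∧ ∀ i ≥ N₁, G i = (1 + N) * G (i + 1) := by
    refine ⟨fun i => 2 / (q ^ min i N₁ * (1 + N) ^ (i - N₁)), by simp, fun i k => ?_,
      fun i => by positivity, fun i k => ?_, fun i k => ?_⟩
    · rw [le_div_iff₀ (by positivity)]
      rcases le_total i N₁ with e | e
      · simpa [e] using pow_le_one₀ q0.le q1.le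
      · rw [min_eq_right e]
        nlinarith [mul_le_mul_of_nonneg_left (pow_le_pow_right₀ (show (1 : ℝ) ≤ 1 + N by linarith)
          (show i - N₁ ≤ N by omega)) (pow_pos q0 N₁).le]
    · simp only [min_eq_left k.le, min_eq_left (Nat.succ_le_of_lt k), Nat.sub_eq_zero_of_le k.le,
        Nat.sub_eq_zero_of_le (Nat.succ_le_of_lt k), pow_succ]
      field_simp
    · simp only [min_eq_right k, min_eq_right (Nat.le_succ_of_le k), Nat.succ_sub k, pow_succ]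
      field_simp
  refine ⟨N₁, G, G0, G1, fun t₀ h0 β b0 b2 tN i hi => ?_⟩
  rcases lt_or_ge i N₁ with k | k
  · obtain ⟨l, l1, l2⟩ := exists_gd h0 b0 b2 (u := 1) (by nlinarith)
    refine ⟨univ, l, _, _, rfl, ?_, .inr ⟨rfl, rfl, l1⟩, ?_, fun c e => by omega⟩
    · rw [card_univ, Fintype.card_fin]
      nlinarith [mul_le_mul_of_nonneg_left l1 (by positivity : (0 : ℝ) ≤ N)]
    · rw [G3 i k, ← mul_assoc, card_univ, Fintype.card_fin]
      refine mul_le_mul_of_nonneg_right ?_ (G2 _)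
      nlinarith [mul_nonneg (sub_nonneg.2 q1.le) (show 0 ≤ N * (2 - gd t₀ β l + t₀) by
        have : 0 ≤ 2 - gd t₀ β l + t₀ := by linarith
        positivity)]
  · obtain ⟨l, l1, l2⟩ := exists_gd h0 b0 b2 (u := 2 * t₀) (by linarith)
    refine ⟨{⟨i - N₁, by omega⟩}, l, _, _, rfl, ?_, .inl rfl, ?_, fun c e =>
      ⟨congrArg _ (Fin.ext (by simp only; omega)), by linarith⟩⟩
    · rw [card_singleton]; push_cast; nlinarith
    · rw [G4 i k, ← mul_assoc, card_singleton]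
      refine mul_le_mul_of_nonneg_right ?_ (G2 _)
      push_cast; nlinarith

/-- the constants -/
theorem consts {C z : ℝ} {J : ℕ} (N0 : (1 : ℝ) ≤ N) (C1 : 1 ≤ C) (r3 : 3 ≤ r) (b0 : 0 < β)
    (hz : z = 1 + N * (2 * r + 15) / 12) (hB : 16 * N * (J + 1) * (31 * C * (2 * r + 15)) * β ≤ 1) :
    β * (r + 7) ≤ 1 / 2 ∧ β ≤ 1 / 2 ∧ ∃ y ≥ (1 : ℝ), y * (2976 * C * β) = 1 ∧
      31 * C * (2 * r + 15) * β + y * (186 * C * β) ≤ 1 / 8 ∧ ∃ H : ℕ → ℝ, H 0 = 1 ∧ 1 / 2 ≤ H J ∧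
        ∀ i, 0 ≤ H i ∧ H i ≤ 1 ∧ ∀ W : ℝ, 1 ≤ 8 * N * W →
          (W + 31 * C * (2 * r + 15) * β) * H (i + 1) ≤ W * H i ∧
          (W + y * (31 * C * (2 * r + 15) * β)) * (1 / z ^ (i + 1)) ≤ W * (1 / z ^ i) := by
  obtain ⟨η, hη⟩ : ∃ η, η = 31 * C * (2 * r + 15) * β := ⟨_, rfl⟩
  have η0 : 0 ≤ η := by rw [hη]; positivity
  rw [mul_assoc, ← hη] at hB
  have η2 : 16 * η ≤ 1 := by
    nlinarith [mul_nonneg η0 (sub_nonneg.2 N0),
      mul_nonneg (mul_nonneg η0 (N.cast_nonneg (α := ℝ))) (J.cast_nonneg (α := ℝ))]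
  have Cβ : β ≤ C * β := le_mul_of_one_le_left b0.le C1
  have b1 : β * (r + 7) ≤ 1 / 2 := by nlinarith
  obtain ⟨y, y1, hy⟩ : ∃ y ≥ (1 : ℝ), y * (2976 * C * β) = 1 :=
    ⟨1 / (2976 * C * β), (one_le_div (by positivity)).2 (by nlinarith), by field_simp⟩
  have x1 : 1 ≤ 1 + 8 * N * η := le_add_of_nonneg_right (by positivity)
  have z0 : 0 < z := by rw [hz]; positivity
  refine ⟨b1, by nlinarith, y, y1, hy, by linarith, fun i => 1 / (1 + 8 * N * η) ^ i, by simp, ?_,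
    fun i => ⟨by positivity, (div_le_one (by positivity)).2 (one_le_pow₀ x1), fun W WN => ⟨?_, ?_⟩⟩⟩
  · refine one_div_le_one_div_of_le (by positivity) ((pow_le_pow_left₀ (by positivity)
      ((add_comm _ _).trans_le (Real.add_one_le_exp _)) _).trans ?_)
    rw [← Real.exp_nat_mul]
    exact (Real.exp_le_exp.2 (show _ ≤ 1 / 2 by nlinarith)).trans
      ((exp_le (by norm_num) (by norm_num)).trans (by norm_num))
  · simp only
    rw [← hη, pow_succ', mul_one_div, mul_one_div, ← div_div]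
    gcongr
    rw [div_le_iff₀ (by positivity)]
    nlinarith
  · rw [show y * (31 * C * (2 * r + 15) * β) = (2 * r + 15) / 96 by
      linear_combination (2 * r + 15) / 96 * hy, pow_succ', mul_one_div, mul_one_div, ← div_div]
    gcongr
    rw [div_le_iff₀ z0, hz]
    nlinarith

theorem sup_le {C ξ : ℝ} (h0 : 0 < t₀) (b0 : 0 < β) (tN : N * t₀ = 1 / 8) (C1 : 1 ≤ C) (ξ1 : ξ ≤ 1)
    (j : ℕ) (p : Prop) [Decidable p] :
    (if p then C * √(1 + 12 * ξ / gd t₀ β j) else 1) ≤ C * (1 + 96 * N) := by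
  have g0 := gd_ge h0 b0 j
  have N0 := N.cast_nonneg (α := ℝ)
  split_ifs
  · refine mul_le_mul_of_nonneg_left (Real.sqrt_le_iff.2 ⟨by positivity, ?_⟩) (by linarith)
    have : 12 * ξ / gd t₀ β j ≤ 96 * N := by rw [div_le_iff₀ (by linarith)]; nlinarith
    nlinarith
  · nlinarith

theorem wt_pos (h0 : 0 < t₀) (b0 : 0 < β) (j : ℕ) : 0 < wt t₀ β j := by
  rw [wt, gd_succ]
  nlinarith [Real.add_one_le_exp β, gd_ge h0 b0 j]

variable {n : ℕ} {X : Type} [Mf0 n X] {Γ : Type} [Group Γ] [MulAction Γ X] {F : Fr Γ}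

theorem li_pot {ν : F.Ω → Measure X} {T : Fin i → F.Ω → X → ℝ} {M : F.Ω → X → ℝ}
    (hT : ∀ k, Rs F (T k)) (h : Li F ν M) (hy : 1 ≤ y) :
    Li F ν fun o x => M o x * pot r y G H Z fun k => T k o x := by
  have m : Measurable (pot r y G H Z (i := i)) :=
    (((meas_kk 2).const_pow y).mul (.ite (by measurability) measurable_const measurable_const)).add
      (((meas_nt r).const_pow y).mul_const Z)
  refine ⟨h.tr.map₂ (tr_pi fun k => (hT k).tr) fun _ a b => a * pot r y G H Z b, fun o x => (h.li o x).imp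
    fun U q => ⟨q.1, Integrable.mul_bdd (c := y ^ i * (|G| + |H|) + y ^ i * |Z|) q.2 (m.comp
      (measurable_pi_lambda _ fun k => ((hT k).sm o).cont.measurable)).aestronglyMeasurable
        (.of_forall fun z => (abs_add_le _ _).trans ?_)⟩⟩
  rw [abs_mul, abs_mul, abs_pow, abs_pow, abs_of_pos (one_pos.trans_le hy)]
  gcongr
  · exact (card_le_univ _).trans_eq (Fintype.card_fin _)
  · split_ifs <;> linarith [abs_nonneg G, abs_nonneg H]
  · exact (card_le_univ _).trans_eq (Fintype.card_fin _)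

omit [Mf0 n X] [MulAction Γ X] in
theorem snoc_app (T : Fin i → F.Ω → X → ℝ) (T' : F.Ω → X → ℝ) (o : F.Ω) (x : X) :
    (fun k => (Fin.snoc T T' : Fin (i + 1) → _) k o x) = Fin.snoc (fun k => T k o x) (T' o x) := by
  funext k
  induction k using Fin.lastCases <;> simp

variable {g₀ : Fld n X} {χ : X → ℝ}

theorem li_md (G : Geo Γ g₀ χ) {g : F.Ω → Fld n X} {v : F.Ω → Fin n → X → ℝ} {Q : F.Ω → X → ℝ}
    (S : Gs F g₀ g v Q) (s δ : ℝ) : Li F (fun _ => vol g₀) fun o => md s δ g₀ (g o) (v o) (Q o) :=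
  li_cont G.riem.met (G.rn_md S.toSta S.rq.toRn s δ).tr fun o =>
    cont_md s δ G.riem.met (S.met o) (S.cc o) (S.rq.sm o).cont

/-- the choice of a move which is not worse than the average -/
theorem pick (G : Geo Γ g₀ χ) {ι : Type} {S : Finset ι} {w : ι → ℝ} {W b : ℝ} (hw : ∀ k, 0 < w k)
    (eW : ∑ k ∈ S, w k = W) (W0 : 0 < W) {Φ : F.Ω → X → ℝ} {Φ' : ι → F.Ω → X → ℝ}
    (l : Li F (fun _ => vol g₀) Φ) (l' : ∀ k, Li F (fun _ => vol g₀) (Φ' k))
    (h : ∀ o x, ∑ k ∈ S, w k * Φ' k o x ≤ W * Φ o x) (hb : E0 F g₀ χ Φ ≤ b) :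
    ∃ k ∈ S, E0 F g₀ χ (Φ' k) ≤ b := by
  have lk := fun k => (l' k).mul (tr_const fun _ => w k) fun _ => continuous_const
  have key := Ex_mono G.rm G.wt (Li.sum S fun k _ => lk k)
    (l.mul (tr_const fun _ => W) fun _ => continuous_const) h
  rw [Ex_sum G.rm G.wt _ fun k _ => lk k] at key
  simp only [Ex_const_mul] at key
  obtain ⟨k, a, b⟩ := exists_le_of_sum_le (nonempty_of_sum_ne_zero (eW.trans_ne W0.ne'))
    (key.trans ((mul_le_mul_of_nonneg_left hb W0.le).trans_eq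
      ((congrArg (· * _) eW.symm).trans (sum_mul _ _ _))))
  exact ⟨k, a, le_of_mul_le_mul_left b (hw k)⟩

theorem fin_le (G : Geo Γ g₀ χ) {M P : F.Ω → X → ℝ} {φ : F.Ω → X → ℕ} {b c e : ℝ} (k : ℕ)
    (y1 : 1 ≤ y) (hy : y * b = 1) (b0 : 0 ≤ b) (c0 : 0 ≤ c) (M0 : ∀ o x, 0 ≤ M o x)
    (l : Li F (fun _ => vol g₀) fun o x => M o x * P o x) (h : ∀ o x, y ^ φ o x ≤ c * P o x)
    (he : E0 F g₀ χ (fun o x => M o x * P o x) ≤ e) :
    E0 F g₀ χ (fun o x => ge k (φ o x) * M o x) ≤ b ^ k * c * e := by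
  refine (Ex_le G.rm G.wt (l.mul (tr_const fun _ => b ^ k * c) fun _ => continuous_const)
    (fun o x => mul_nonneg (ge_nonneg _ _) (M0 o x)) fun o x => ?_).trans ((Ex_const_mul _ _).trans_le
      (mul_le_mul_of_nonneg_left he (by positivity)))
  rw [mul_left_comm, mul_comm, mul_assoc]
  refine mul_le_mul_of_nonneg_left (le_trans ?_ (mul_le_mul_of_nonneg_left (h o x) (by positivity)))
    (M0 o x)
  unfold ge
  split_ifs with e
  · rw [← one_pow k, ← hy, mul_pow, mul_comm]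
    gcongr
  · positivity

/-- **PNT** -/
theorem pnt_of (mv : MOV n) : PNT n := by
  intro s hs
  obtain ⟨C, C1, hC⟩ := rnd mv hs
  refine ⟨6 * (2976 * C) ^ n, by positivity, fun X Γ _ _ _ g₀ χ G F K hK => ?_⟩
  obtain ⟨D, hD, KD⟩ := exists_compact_superset hK
  obtain ⟨N, col, -, hc⟩ := colour G.deck F hD
  obtain ⟨o₀⟩ := nonempty_of_isProbabilityMeasure F.μ
  have N0 : (1 : ℝ) ≤ N := by exact_mod_cast (col o₀).pos
  obtain ⟨N₁, Gq, G0, G1, G2⟩ := sched N0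
  refine ⟨D, N₁ + N, fun r r3 => ?_⟩
  obtain ⟨z, z1, hz⟩ : ∃ z ≥ (1 : ℝ), z = 1 + N * (2 * r + 15) / 12 :=
    ⟨_, le_add_of_nonneg_right (by positivity), rfl⟩
  obtain ⟨C₁, c1, hc1⟩ : ∃ C₁ ≥ (1 : ℝ), C₁ = C * (1 + 96 * N) := ⟨_, by nlinarith, rfl⟩
  have B1 := one_le_pow₀ (n := N₁ + N) c1
  have B2 : 0 ≤ 3 * (2976 * C) ^ (n + 1) * z ^ (N₁ + N) := by positivity
  have B3 : 0 ≤ 16 * N * ((N₁ + N : ℕ) + 1) * (31 * C * (2 * r + 15)) := by positivity
  refine ⟨C₁ ^ (N₁ + N) + 3 * (2976 * C) ^ (n + 1) * z ^ (N₁ + N) +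
    16 * N * ((N₁ + N : ℕ) + 1) * (31 * C * (2 * r + 15)), by linarith, fun β b0 hB => ?_⟩
  obtain ⟨b1, b2, y, y1, hy, yη, Hq, H0, H1, H2⟩ := consts (J := N₁ + N) N0 C1 r3 b0 hz
    ((mul_le_mul_of_nonneg_right (by linarith) b0.le).trans hB)
  obtain ⟨t₀, h0, tN⟩ : ∃ t₀ > (0 : ℝ), N * t₀ = 1 / 8 := ⟨1 / (8 * N), by positivity, by field_simp⟩
  obtain ⟨ε₀, ε0, hε⟩ := hC (r + 1) (by linarith) t₀ h0 β b0 (by linarith)
  refine ⟨ε₀, ε0, fun ε e0 e1 δ m g v Q a δ0 δ1 S h hm => ?_⟩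
  obtain ⟨x₀⟩ : Nonempty X := inferInstance
  have m0 : 0 ≤ m := (md_nonneg _ _ _ _ _ _).trans (hm o₀ x₀)
  have I0 : 0 ≤ ∫ x, χ x ∂vol g₀ := integral_nonneg G.wt.nn
  have a1 : ∀ o x, ∑ c, sp col c a o x = 1 := fun o x => (sum_sp G.deck hK h.cs).trans (h.pu.sum o x)
  have main : ∀ i ≤ N₁ + N, ∃ (g' : F.Ω → Fld n X) (v' : F.Ω → Fin n → X → ℝ) (Q' : F.Ω → X → ℝ)
      (A : Fin i → Set F.Ω) (T : Fin i → F.Ω → X → ℝ), Gs F g₀ g' v' Q' ∧ Amp F K g' a ε ∧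
      (∀ k, IsClopen (A k) ∧ Sep Γ (A k) D ∧ Rs F (T k) ∧ ∀ o x,
        (-r < T k o x → x ∈ Un Γ (A k) K o) ∧ gn (g' o) (T k o) x ≤ ε / β) ∧
      (∀ o x, md s δ g₀ (g' o) (v' o) (Q' o) x ≤ C₁ ^ i * m ∧ ∀ c : Fin N, N₁ + c < i →
        8 * t₀ ≤ sp col c a o x → ∃ k, r ≤ T k o x) ∧
      E0 F g₀ χ (fun o x => md s δ g₀ (g' o) (v' o) (Q' o) x * pot r y (Gq i) (Hq i) (1 / z ^ i)
        fun k => T k o x) ≤ 3 * m * ∫ x, χ x ∂vol g₀ := by
    clear hC hB B1 B2 B3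
    intro i
    induction i with
    | zero =>
      refine fun _ => ⟨g, v, Q, Fin.elim0, Fin.elim0, S, h, fun k => k.elim0, fun o x =>
        ⟨by simpa using hm o x, fun c k => by omega⟩, (Ex_mono G.rm G.wt (li_pot (fun k => k.elim0)
          (li_md G S s δ) y1) (li_cont G.riem.met (tr_const fun _ => 3 * m) fun _ => continuous_const)
            fun o x => ?_).trans_eq (by simp [Ex, integral_mul_const, mul_comm (3 * m)])⟩
      simp only [pot, kk, nt, G0, H0, univ_eq_empty, filter_empty, card_empty, pow_zero, IsEmpty.forall_iff,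
        if_true]
      linarith [hm o x]
    | succ i ih =>
      intro hi
      obtain ⟨g, v, Q, A, T, S, h, hT, hm, hE⟩ := ih (by omega)
      obtain ⟨ξ, x0, x2, H⟩ := hε ε e0 e1 X Γ g₀ χ G F K D N col δ g v Q a hK hD KD hc δ0 δ1 S h
      choose g' v' Q' T' S' h' sT H using H
      have G4 := G1 _ hi
      obtain ⟨U, l, W, κ, eW, WN, hκ, bG, cv⟩ := G2 t₀ h0 β b0 b2 tN i hi
      obtain ⟨⟨c, j⟩, kU, hk⟩ := pick G (S := U ×ˢ range l) (W := W) (fun k => wt_pos h0 b0 k.2)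
        (by simp only [sum_product, sum_wt, sum_const, nsmul_eq_mul, eW])
        (pos_of_mul_pos_right (one_pos.trans_le WN) (by positivity))
        (li_pot (fun k => (hT k).2.2.1) (li_md G S s δ) y1) (fun k => li_pot (r := r)
          (G := Gq (i + 1)) (H := Hq (i + 1)) (Z := 1 / z ^ (i + 1))
          (T := Fin.snoc T (T' k.1 k.2)) (fun j => by
            induction j using Fin.lastCases
            · simpa using sT _ _
            · simpa using (hT _).2.2.1) (li_md G (S' k.1 k.2) s δ) y1) (fun o x => by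
        simp only [snoc_app]
        exact avg2 U l h0 b0 b1 r3 C1 (fun c => sp_nonneg h.nn) (a1 o x) (fun c => (x0 c o x).1)
          (x2 o x) tN eW hκ y1 (H2 _).1 (by linarith [(H2 (i + 1)).2.1]) (by positivity)
          (md_nonneg _ _ _ _ _ _) (fun k => (H k.1 k.2 o x).2.2.2.1)
          (fun k => (H k.1 k.2 o x).2.2.2.2.2) (le_trans (mul_le_mul_of_nonneg_right (by linarith)
            (by linarith)) bG) ((H2 i).2.2 W WN).1 ((H2 i).2.2 W WN).2) hE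
      refine ⟨g' c j, v' c j, Q' c j, Fin.snoc A {o | col o = c}, Fin.snoc T (T' c j), S' c j, h' c j,
        fun k => ?_, fun o x => ⟨(H c j o x).2.2.2.2.2.trans ?_, fun c' k e => ?_⟩, hk⟩
      · induction k using Fin.lastCases with
        | last => simpa using ⟨(hc c).1, (hc c).2, sT c j, fun o x => ⟨fun k => by_contra fun e => by
            linarith [(H c j o x).2.2.1 e], (H c j o x).2.1⟩⟩
        | cast k => simpa using ⟨(hT k).1, (hT k).2.1, (hT k).2.2.1, fun o x =>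
            ⟨((hT k).2.2.2 o x).1, ((H c j o x).1 _).trans ((hT k).2.2.2 o x).2⟩⟩
      · rw [pow_succ, mul_right_comm]
        exact mul_le_mul (hm o x).1 ((sup_le h0 b0 tN C1 (x0 c o x).2 j _).trans_eq hc1.symm)
          (by split_ifs <;> positivity) (by positivity)
      · rcases (Nat.lt_succ_iff.1 k).eq_or_lt with k | k
        · obtain ⟨rfl, l1⟩ := cv c' k
          obtain ⟨u1, u2⟩ := mem_product.1 kU
          obtain rfl : c = c' := mem_singleton.1 u1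
          exact ⟨Fin.last _, by
            simp only [Fin.snoc_last, (H c j o x).2.2.2.2.1 (th_ge h0 b0 (by linarith)
              (mem_range.1 u2).le l1 e)]; linarith⟩
        · obtain ⟨k, e⟩ := (hm o x).2 c' k e
          exact ⟨k.castSucc, by simpa using e⟩
  obtain ⟨g', v', Q', A, T, S', h', hT, hm', hE⟩ := main _ le_rfl
  clear main hC hε hB G2
  have G5 := G1 _ le_rfl
  have l := li_pot (r := r) (G := Gq (N₁ + N)) (H := Hq (N₁ + N)) (Z := 1 / z ^ (N₁ + N))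
    (fun k => (hT k).2.2.1) (li_md G S' s δ) y1
  refine ⟨g', v', Q', A, T, S', h', ⟨hK, hD, KD, fun k => (hT k).1, fun k => (hT k).2.1,
    fun k => (hT k).2.2.1, fun k o x => ((hT k).2.2.2 o x).1, fun o x => ?_⟩,
    fun k o x => ((hT k).2.2.2 o x).2, fun o x => (hm' o x).1.trans (by gcongr; linarith),
    (fin_le G n y1 hy (by positivity) zero_le_two (fun _ _ => md_nonneg _ _ _ _ _ _) l
      (fun o x => ?_) hE).trans_eq (by ring), (fin_le G (n + 1) y1 hy (by positivity)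
        (c := z ^ (N₁ + N)) (by positivity) (fun _ _ => md_nonneg _ _ _ _ _ _) l (fun o x => ?_)
          hE).trans ?_⟩
  · obtain ⟨c, -, e⟩ := exists_le_of_sum_le (f := fun _ => 8 * t₀) ⟨col o, mem_univ _⟩
      (le_of_eq_of_le (by simp only [sum_const, card_univ, Fintype.card_fin, nsmul_eq_mul]; linarith)
        (a1 o x).ge)
    exact (hm' o x).2 c (by omega) e
  · have : 0 ≤ y ^ (nt r fun k => T k o x) * (1 / z ^ (N₁ + N)) := by positivity
    have : 0 ≤ y ^ kk 2 fun k => T k o x := by positivity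
    rw [pot]
    split_ifs <;> nlinarith
  · have := (H2 (N₁ + N)).1
    rw [pot, mul_add, mul_left_comm _ (y ^ nt r _), mul_one_div_cancel (by positivity), mul_one]
    exact le_add_of_nonneg_left (by split_ifs <;> positivity)
  · calc _ = 3 * (2976 * C) ^ (n + 1) * z ^ (N₁ + N) * β ^ (n + 1) * m * ∫ x, χ x ∂vol g₀ := by ring
      _ ≤ _ := by gcongr; linarith

theorem pnt (h : EVT n) : PNT n := pnt_of (P223Y.mov h)

end Vale.Agent.P223G
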