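import Vale.Agent.P223G.Lin
import Vale.Agent.P223G.Defs
import Vale.Agent.P223F.Mt
import Vale.Agent.P223Y.Eqv
import Vale.Agent.P210K.Tr
import Vale.Agent.P210L.Lbar

/-!
# P223G: prices (helper34)
-/

open Filter Topology Set
open scoped ContDiff
open Vale.Agent.P366M Vale.Agent.P210G Vale.Agent.P223Y Vale.Agent.P223F

noncomputable section

namespace Vale.Agent.P223G

variable {n : ℕ} {X : Type} [Mf0 n X] {g g' : Fld n X} {v v' : Fin n → X → ℝ} {c p u w : X → ℝ}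
  {x : X} {K K₁ O : Set X}

theorem Lv_lin (hg : Met g) (hu : CAt 2 u x) (hw : CAt 2 w x) (s t : ℝ) :
    Lv g v (fun y => s * u y + t * w y) x = s * Lv g v u x + t * Lv g v w x := by
  have a : CAt 2 (fun y => s * u y) x := ContDiffAt.mul contDiffAt_const hu
  have b : CAt 2 (fun y => t * w y) x := ContDiffAt.mul contDiffAt_const hw
  rw [Lv, hg.lap_add a b, lap_const_mul, lap_const_mul, iv_lin' (s := s) (t := t) (b := df u)
    (c := df w) fun i => by rw [df, pd_add (diff2 a) (diff2 b), pd_const_mul, pd_const_mul]; rfl,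
    Lv, Lv]
  ring

theorem Lv_const (s : ℝ) : Lv g v (fun _ => s) x = 0 := by simp [Lv, lap_const, iv, df, pd_const]

theorem Lv_congr (e : u =ᶠ[𝓝 x] w) : Lv g v u x = Lv g v w x := by
  simp only [Lv, lap_congr e, iv, df, pd_congr e]

theorem Lv_of_ev (e : g =ᶠ[𝓝 x] g') (e' : ∀ i, v i x = v' i x) : Lv g v u x = Lv g' v' u x := by
  simp only [Lv, lap_of_ev e, iv, e', up, mat, e.self_of_nhds]

theorem Lv_sum (hg : Met g) {ι : Type} (s : Finset ι) {U : ι → X → ℝ} (hU : ∀ k, Smooth (U k)) :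
    Lv g v (fun y => ∑ k ∈ s, U k y) x = ∑ k ∈ s, Lv g v (U k) x := by
  classical
  induction s using Finset.induction_on with
  | empty => simpa using Lv_const 0
  | insert a s ha ih =>
    have := Lv_lin (v := v) hg ((hU a).c2 x) (Smooth.c2 (CD.sum (s := s) fun k _ => hU k) x) 1 1
    simp only [one_mul] at this
    simp only [Finset.sum_insert ha, this, ih]

theorem cmpL [CompactSpace X] (hg : Met g) (c0 : ∀ x, 0 < c x) (hu : Smooth u) (hw : Smooth w)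
    (h : ∀ x, c x * u x - Lv g v u x ≤ c x * w x - Lv g v w x) (x : X) : u x ≤ w x := by
  have s : Smooth fun y => 1 * u y + -1 * w y := CD.add (CD.mul cd_const hu) (CD.mul cd_const hw)
  obtain ⟨z, -, hz⟩ := isCompact_univ.exists_isMaxOn ⟨x, trivial⟩ s.cont.continuousOn
  have k := Lv_max (v := v) hg (s.c2 z) (hz.isLocalMax univ_mem)
  rw [Lv_lin hg (hu.c2 z) (hw.c2 z)] at k
  have k1 : 1 * u x + -1 * w x ≤ 1 * u z + -1 * w z := hz trivial
  have k2 : u z ≤ w z := le_of_mul_le_mul_left (by linarith [h z]) (c0 z)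
  linarith

/-- the price of one label -/
theorem price0 (hg : Met g) (hv : CC ∞ v) (hp : Smooth p) (hK : IsCompact K) (hK₁ : IsCompact K₁)
    (hO : IsOpen O) (hKO : K ⊆ O) (p0 : ∀ x ∉ K, p x = 0) (p1 : ∀ x, 0 ≤ p x ∧ p x ≤ 1) {τ : ℝ}
    (τ0 : 0 < τ) (τ1 : τ ≤ 1) : ∃ ξ, Smooth ξ ∧ ∀ x ∈ K₁, 0 ≤ ξ x ∧ ξ x ≤ 1 ∧
      ξ x - p x ≤ Lv g v ξ x ∧ (x ∈ K → Lv g v ξ x ≤ ξ x - p x) ∧ (x ∉ O → ξ x ≤ τ) := by
  rcases K₁.eq_empty_or_nonempty with rfl | hne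
  · exact ⟨fun _ => 0, cd_const, by simp⟩
  obtain ⟨Y, _, _, π, σ, V, a, -, s⟩ := P210L.closeup hg hK₁ isOpen_univ (subset_univ _) hne
  have cv : CC ∞ (pullC π v) := by
    have := P210K.cc_cut (χ := fun _ => (1 : ℝ)) isOpen_univ (fun z _ => s.sm z) cd_const
      (subset_univ _) hv
    simpa only [one_mul] using this
  obtain ⟨χ, c1, -, c2, c3, c4⟩ := exists_cut hK hO hKO
  obtain ⟨φ, sφ, φ0, φ1, φ3⟩ : ∃ φ : Y → ℝ, Smooth φ ∧ (∀ y, 0 < φ y ∧ φ y ≤ 1) ∧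
      (∀ y, π y ∈ K → φ =ᶠ[𝓝 y] fun _ => 1) ∧ ∀ y, π y ∉ O → φ y = τ :=
    ⟨fun y => τ + (1 - τ) * χ (π y), CD.add cd_const (CD.mul cd_const (P366D.smooth_comp s.sm c1)),
      fun y => by constructor <;> nlinarith [c3 (π y)],
      fun y k => ((s.sm y).ct.eventually (c4 _ k)).mono fun z q => by simp only [q]; ring,
      fun y k => by simp only [image_eq_zero_of_notMem_tsupport fun q => k (c2 q)]; ring⟩
  have sL := sm_Lv bg_met cv sφ
  have sc : Smooth fun y => 1 + (Lv bg (pullC π v) φ y / φ y) ^ 2 :=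
    CD.add cd_const (CD.pow (CD.div sL sφ fun y => (φ0 y).1.ne') 2)
  have c0 : ∀ y, 0 < 1 + (Lv bg (pullC π v) φ y / φ y) ^ 2 := fun y => by positivity
  have L1 : ∀ y, π y ∈ K → Lv bg (pullC π v) φ y = 0 := fun y k => by
    rw [Lv_congr (φ1 y k), Lv_const]
  obtain ⟨u, u1, u2⟩ := linV bg_met cv sc c0 (P366D.smooth_comp s.sm hp)
  have lo := cmpL (v := pullC π v) bg_met c0 (cd_const (c := 0)) u1 fun y => by
    rw [Lv_const, u2]; linarith [(p1 (π y)).1]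
  have hi := cmpL (v := pullC π v) bg_met c0 u1 sφ fun y => by
    rw [u2]
    by_cases k : π y ∈ K
    · rw [L1 y k, (φ1 y k).self_of_nhds]; linarith [(p1 (π y)).2]
    · have := (φ0 y).1
      rw [p0 _ k, ← div_mul_cancel₀ (Lv bg (pullC π v) φ y) this.ne', mul_div_cancel_right₀ _ this.ne']
      nlinarith [mul_nonneg this.le (sq_nonneg (Lv bg (pullC π v) φ y / φ y - 1)),
        mul_nonneg this.le (sq_nonneg (Lv bg (pullC π v) φ y / φ y))]
  obtain ⟨ξ, s1, s2⟩ := P210L.sec_down s hK₁ a u1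
  refine ⟨ξ, s1, fun z hz => ?_⟩
  have e1 : ξ z = u (σ z) := (s2 z hz).1.self_of_nhds
  have e2 := P210K.Lv_eq (s.iso z (a hz)) (fun _ => rfl) (s1.c2 _) (s2 z hz).2 (v := v)
  have e3 := s.rt z (a hz)
  rw [u2, e3] at e2
  rw [e1, ← e2]
  refine ⟨lo _, (hi _).trans (φ0 _).2, by
    nlinarith [mul_nonneg (sq_nonneg (Lv bg (pullC π v) φ (σ z) / φ (σ z))) (lo (σ z))],
    fun k => ?_, fun k => (hi _).trans_eq (φ3 _ (e3.symm ▸ k))⟩
  rw [L1 _ (e3.symm ▸ k)]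
  simp

variable {Γ : Type} [Group Γ] [MulAction Γ X] {F : Fr Γ}

theorem finsum_lb {q : F.Ω → X → ℝ} (cs : Cs q K) {T : Finset Γ} (hT : ∀ γ : Γ, γ⁻¹ • x ∈ K → γ ∈ T)
    (o : F.Ω) : ∑ᶠ γ : Γ, lb γ q o x = ∑ γ ∈ T, lb γ q o x :=
  finsum_eq_sum_of_support_subset _ fun γ k => hT γ (by_contra fun e => k (cs _ _ e))

omit [MulAction Γ X] in
theorem cont_tr {q : F.Ω → X → ℝ} (h : Tr q) (c : ∀ o, Continuous (q o)) :
    Continuous fun z : F.Ω × X => q z.1 z.2 := continuous_iff_continuousAt.2 fun z =>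
  ((c z.1).comp continuous_snd).continuousAt.congr (by
    rw [nhds_prod_eq]; exact (h z.1 z.2).mono fun _ k => k.symm)

theorem cont_fs (d : Deck X Γ) {q : F.Ω → X → ℝ} (c : ∀ o, Continuous (q o)) (hK : IsCompact K)
    (cs : Cs q K) (o : F.Ω) : Continuous fun x => ∑ᶠ γ : Γ, lb γ q o x :=
  continuous_iff_continuousAt.2 fun x => by
    obtain ⟨T, hT⟩ := ev_fin d hK x
    exact (continuous_finsetSum T fun γ _ => (c _).comp (d.cont γ⁻¹)).continuousAt.congr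
      (hT.mono fun y k => (finsum_lb cs k o).symm)

/-- the number of translates of a compact set through a point is bounded -/
theorem mult (d : Deck X Γ) (hK : IsCompact K) : ∃ M : ℕ, ∀ x : X, ∃ T : Finset Γ, T.card ≤ M ∧
    ∀ γ : Γ, γ ∈ T ↔ γ⁻¹ • x ∈ K := by
  classical
  have hT := proper d hK hK
  refine ⟨hT.toFinset.card, fun x => ?_⟩
  obtain ⟨T, hT'⟩ := ev_fin d hK x
  refine ⟨T.filter fun γ => γ⁻¹ • x ∈ K, ?_, fun γ => by simpa using hT'.self_of_nhds γ⟩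
  rcases (T.filter fun γ => γ⁻¹ • x ∈ K).eq_empty_or_nonempty with e | ⟨δ, e⟩
  · simp [e]
  · refine Finset.card_le_card_of_injOn (fun γ => γ⁻¹ * δ) (fun γ k => ?_) fun a _ b _ k => by
      simpa using k
    simp only [Finset.coe_filter, Finset.mem_filter, mem_ofPred_eq] at k e
    simpa using ⟨_, e.2, by simpa [mul_smul] using k.2⟩

theorem Lv_lb (d : Deck X Γ) {g : F.Ω → Fld n X} {v : F.Ω → Fin n → X → ℝ} (hg : Inv Γ g)
    (hv : ∀ i, Inv Γ fun o => v o i) (γ : Γ) (q : F.Ω → X → ℝ) (o : F.Ω) (x : X) :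
    Lv (g o) (v o) (lb γ q o) x = Lv (g (γ⁻¹ • o)) (v (γ⁻¹ • o)) (q (γ⁻¹ • o)) (γ⁻¹ • x) := by
  have := congrFun ((d.cm γ⁻¹).Lv (g (γ⁻¹ • o)) (v (γ⁻¹ • o)) (q (γ⁻¹ • o))) x
  simp only [hg γ⁻¹ o, fun i => hv i γ⁻¹ o] at this
  exact this

/-- **PRICE** -/
theorem price : PRICE n := by
  classical
  intro X Γ _ _ _ d F g v p K ig tg hg iv tv hv tp hp hK cs p0 p1
  obtain ⟨K₀, k0, k0'⟩ := exists_compact_superset hK
  obtain ⟨K₁, k1, k1'⟩ := exists_compact_superset k0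
  obtain ⟨K₂, k2, k2'⟩ := exists_compact_superset k1
  obtain ⟨M, hM⟩ := mult d k1
  have s1 : K ⊆ K₁ := k0'.trans (interior_subset.trans (k1'.trans interior_subset))
  have fs : ∀ {q : F.Ω → X → ℝ}, Cs q K → ∀ o x, ∑ᶠ γ : Γ, lb γ q o x =
      ∑ γ ∈ (hM x).choose, lb γ q o x := fun c o x =>
    finsum_lb c (fun γ k => ((hM x).choose_spec.2 γ).2 (s1 k)) o
  have p2 : ∀ o x, p o x ≤ 1 := fun o x => by
    by_cases k : x ∈ K
    · refine le_trans ?_ ((fs cs o x).symm.trans_le (p1 o x))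
      simpa only [lb_one] using Finset.single_le_sum (f := fun γ => lb γ p o x)
        (fun γ _ => p0 _ _) (((hM x).choose_spec.2 1).2 (by simpa using s1 k))
    · rw [cs o x k]; exact zero_le_one
  obtain ⟨τ, τ0, τ1, τM⟩ : ∃ τ > (0 : ℝ), τ ≤ 1 ∧ M * τ ≤ 1 :=
    ⟨1 / (M + 1), by positivity, (div_le_one (by positivity)).2 (by linarith [M.cast_nonneg (α := ℝ)]),
      by rw [mul_one_div, div_le_one (by positivity)]; linarith⟩
  choose ξ₀ x1 x2 using fun o => price0 (hg o) (hv o) (hp o) hK k1 isOpen_interior k0' (cs o)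
    (fun x => ⟨p0 o x, p2 o x⟩) τ0 τ1
  obtain ⟨r, r1, r2⟩ := ((tg.prod (tr_pi tv)).prod tp).rep k2 isClopen_univ
  obtain ⟨ξ, tξ, sξ, H⟩ : ∃ ξ : F.Ω → X → ℝ, Tr ξ ∧ (∀ o, Smooth (ξ o)) ∧ ∀ o, ∀ x ∈ K₁,
      0 ≤ ξ o x ∧ ξ o x ≤ 1 ∧ ξ o x - p o x ≤ Lv (g o) (v o) (ξ o) x ∧
      (x ∈ K → Lv (g o) (v o) (ξ o) x ≤ ξ o x - p o x) ∧ (x ∉ interior K₀ → ξ o x ≤ τ) := by
    refine ⟨fun o => ξ₀ (r o), tr_lc r1 ξ₀, fun o => x1 _, fun o x hx => ?_⟩
    have e := (r2 o).2 x (interior_subset (k2' hx))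
    have e1 : g (r o) =ᶠ[𝓝 x] g o := mem_of_superset (mem_interior_iff_mem_nhds.1 (k2' hx))
      fun y k => (Prod.ext_iff.1 (Prod.ext_iff.1 ((r2 o).2 y k)).1).1
    rw [← Lv_of_ev e1 (v := v (r o)) fun i => congrFun (Prod.ext_iff.1 (Prod.ext_iff.1 e).1).2 i,
      ← show p (r o) x = p o x from (Prod.ext_iff.1 e).2]
    exact x2 _ x hx
  obtain ⟨η, hη⟩ : ∃ η : F.Ω → X → ℝ, η = fun o => K₁.indicator fun x => max (ξ o x - τ) 0 := ⟨_, rfl⟩
  have η1 : ∀ o, ∀ x ∈ K₁, η o x = max (ξ o x - τ) 0 := fun o x k => by rw [hη]; exact indicator_of_mem k _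
  have cη : Cs η K₁ := fun o x k => by rw [hη]; exact indicator_of_notMem k _
  have η0 : ∀ o x, 0 ≤ η o x := fun o x => by
    rw [hη]; exact indicator_nonneg (fun _ _ => le_max_right _ _) x
  have tη : Tr η := by
    rw [hη]; exact tξ.map fun x t => K₁.indicator (fun _ => max (t - τ) 0) x
  have oη : ∀ o, Continuous (η o) := fun o => continuous_iff_continuousAt.2 fun x => by
    by_cases k : x ∈ K₀
    · exact (((sξ o).cont.sub continuous_const).max continuous_const).continuousAt.congr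
        (mem_of_superset (mem_interior_iff_mem_nhds.1 (k1' k)) fun y q => (η1 o y q).symm)
    · refine (continuousAt_const (y := (0 : ℝ))).congr (mem_of_superset
        (k0.isClosed.isOpen_compl.mem_nhds k) fun y q => ?_)
      by_cases q' : y ∈ K₁
      · exact ((η1 o y q').trans (max_eq_right (sub_nonpos.2
          ((H o y q').2.2.2.2 fun e => q (interior_subset e))))).symm
      · exact (cη o y q').symm
  have top : ∀ o x, ∑ᶠ γ : Γ, lb γ η o x ≤ 1 := fun o x => by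
    obtain ⟨T, -, hT⟩ := hM x
    rcases T.eq_empty_or_nonempty with rfl | ⟨δ, hδ⟩
    · simp [finsum_lb cη (fun γ => (hT γ).2) o]
    obtain ⟨⟨o₀, x₀⟩, -, hz⟩ := (isCompact_univ.prod k1).exists_isMaxOn
      ⟨(δ⁻¹ • o, δ⁻¹ • x), trivial, (hT δ).1 hδ⟩ (cont_tr ((tη.fam d k1 cη).map
        fun _ a => ∑ᶠ γ, a γ) (cont_fs d oη k1 cη)).continuousOn
    have mx : ∀ o x, ∑ᶠ γ : Γ, lb γ η o x ≤ ∑ᶠ γ : Γ, lb γ η o₀ x₀ := fun o x => by
      obtain ⟨T, -, hT⟩ := hM x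
      rcases T.eq_empty_or_nonempty with rfl | ⟨δ, hδ⟩
      · rw [finsum_lb cη (fun γ => (hT γ).2) o]
        exact finsum_nonneg fun γ => η0 _ _
      · exact (inv_finsum η δ⁻¹ o x).symm.trans_le (hz (a := (δ⁻¹ • o, δ⁻¹ • x)) ⟨trivial, (hT δ).1 hδ⟩)
    refine (mx o x).trans ?_
    obtain ⟨T, hT⟩ := ev_fin d k1 x₀
    set J := T.filter fun γ => γ⁻¹ • x₀ ∈ K₁ ∧ τ < lb γ ξ o₀ x₀ with hJ
    have sl : ∀ γ : Γ, Smooth (lb γ ξ o₀) := fun γ => d.smooth (sξ _) γ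
    have e0 : ∑ᶠ γ : Γ, lb γ η o₀ x₀ = ∑ γ ∈ J, (lb γ ξ o₀ x₀ - τ) := by
      rw [finsum_lb cη hT.self_of_nhds, hJ, Finset.sum_filter]
      refine Finset.sum_congr rfl fun γ _ => ?_
      split_ifs with k
      · exact (η1 _ _ k.1).trans (max_eq_left (sub_nonneg.2 k.2.le))
      · by_cases q : γ⁻¹ • x₀ ∈ K₁
        · exact (η1 _ _ q).trans (max_eq_right (sub_nonpos.2 (not_lt.1 fun e => k ⟨q, e⟩)))
        · exact cη _ _ q
    have jm : ∀ γ ∈ J, γ⁻¹ • x₀ ∈ K₁ ∧ τ < lb γ ξ o₀ x₀ := fun γ k => (Finset.mem_filter.1 k).2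
    have lm : IsLocalMax (fun x => ∑ γ ∈ J, lb γ ξ o₀ x) x₀ := by
      filter_upwards [hT, (eventually_all_finset J).2 fun γ k => (d.cont γ⁻¹).continuousAt.eventually
        (mem_interior_iff_mem_nhds.1 (k1' (interior_subset (by_contra fun q =>
          ((H _ _ (jm γ k).1).2.2.2.2 q).not_gt (jm γ k).2))))] with y a b
      have k1 := mx o₀ y
      rw [e0, finsum_lb cη a] at k1
      have k2 : ∑ γ ∈ J, (lb γ ξ o₀ y - τ) ≤ ∑ γ ∈ T, lb γ η o₀ y :=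
        (Finset.sum_le_sum fun γ k => (le_max_left _ _).trans_eq (η1 _ _ (b γ k)).symm).trans
          (Finset.sum_le_sum_of_subset_of_nonneg (Finset.filter_subset _ _) fun γ _ _ => η0 _ _)
      simp only [Finset.sum_sub_distrib] at k1 k2
      linarith
    have k := Lv_max (v := v o₀) (hg o₀) (Smooth.c2 (CD.sum (s := J) fun γ _ => sl γ) x₀) lm
    rw [Lv_sum (hg o₀) J sl] at k
    have k3 : ∑ γ ∈ J, (lb γ ξ o₀ x₀ - lb γ p o₀ x₀) ≤ ∑ γ ∈ J, Lv (g o₀) (v o₀) (lb γ ξ o₀) x₀ :=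
      Finset.sum_le_sum fun γ q => by
        rw [Lv_lb d ig iv]; exact (H _ _ (jm γ q).1).2.2.1
    have k4 : ∑ γ ∈ J, lb γ p o₀ x₀ ≤ 1 := le_trans
      (Finset.sum_le_sum_of_subset_of_nonneg (Finset.filter_subset _ _) fun γ _ _ => p0 _ _)
      ((finsum_lb cs (fun γ q => hT.self_of_nhds γ (s1 q)) o₀).symm.trans_le (p1 _ _))
    have k5 : 0 ≤ ∑ γ ∈ J, τ := Finset.sum_nonneg fun _ _ => τ0.le
    rw [e0]
    simp only [Finset.sum_sub_distrib] at k3 ⊢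
    linarith
  refine ⟨ξ, tξ, sξ, fun o x k => ⟨(H o x (s1 k)).1, (H o x (s1 k)).2.1, (H o x (s1 k)).2.2.2.1 k⟩,
    fun o x => ?_⟩
  have k := top o x
  rw [finsum_lb cη (fun γ => ((hM x).choose_spec.2 γ).2) o] at k
  rw [fs (fun o x q => indicator_of_notMem q _)]
  have k1 : ∑ γ ∈ (hM x).choose, lb γ (fun o => K.indicator (ξ o)) o x ≤
      ∑ γ ∈ (hM x).choose, (lb γ η o x + τ) := Finset.sum_le_sum fun γ _ => by
    by_cases q : γ⁻¹ • x ∈ K
    · simp only [lb, indicator_of_mem q, η1 _ _ (s1 q)]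
      linarith [le_max_left (ξ (γ⁻¹ • o) (γ⁻¹ • x) - τ) 0]
    · simp only [lb, indicator_of_notMem q]
      linarith [η0 (γ⁻¹ • o) (γ⁻¹ • x)]
  rw [Finset.sum_add_distrib, Finset.sum_const, nsmul_eq_mul] at k1
  have k2 : ((hM x).choose.card : ℝ) * τ ≤ M * τ :=
    mul_le_mul_of_nonneg_right (by exact_mod_cast (hM x).choose_spec.1) τ0.le
  linarith

end Vale.Agent.P223G
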