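import Vale.Agent.P223G.Price
import Vale.Agent.P223G.Avg
import Vale.Agent.P223A.Bas

/-!
# P223G: one round (helper34)
-/

open Filter Topology Set
open scoped ContDiff
open Vale.Agent.P366M Vale.Agent.P210G Vale.Agent.P223Y Vale.Agent.P223F Vale.Agent.P223A
open Vale.Agent.P210R (fi)

noncomputable section

namespace Vale.Agent.P223G

variable {n : ℕ} {X : Type} [Mf0 n X] {Γ : Type} [Group Γ] [MulAction Γ X] {F : Fr Γ} {N : ℕ}
  {col : F.Ω → Fin N} {c : Fin N} {K : Set X} {p a : F.Ω → X → ℝ} {o : F.Ω} {x : X}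
  {g g' : F.Ω → Fld n X} {ε : ℝ}

/-- the share of the colour `c` -/
def sp (col : F.Ω → Fin N) (c : Fin N) (p : F.Ω → X → ℝ) (o : F.Ω) (x : X) : ℝ :=
  ∑ᶠ γ : Γ, lb γ (fun o x => if col o = c then p o x else 0) o x

omit [Mf0 n X] in
theorem sp_off (cs : Cs p K) (h : x ∉ Un Γ {o | col o = c} K o) : sp col c p o x = 0 :=
  finsum_eq_zero_of_forall_eq_zero fun γ => ite_eq_right_iff.2 fun q => cs _ _ fun k => h ⟨γ, q, k⟩

theorem sp_on (cs : Cs p K) (hs : Sep Γ {o | col o = c} K) {γ : Γ} (a : col (γ⁻¹ • o) = c)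
    (b : γ⁻¹ • x ∈ K) : sp col c p o x = p (γ⁻¹ • o) (γ⁻¹ • x) :=
  (finsum_eq_single _ γ fun _ e => ite_eq_right_iff.2 fun q => cs _ _ fun k =>
    e (hs.eq q k a b)).trans (if_pos a)

omit [Mf0 n X] in
theorem sp_nonneg (h : ∀ o x, 0 ≤ p o x) : 0 ≤ sp col c p o x :=
  finsum_nonneg fun _ => ite_nonneg (h _ _) le_rfl

theorem sum_sp (d : Deck X Γ) (hK : IsCompact K) (cs : Cs p K) :
    ∑ c, sp col c p o x = ∑ᶠ γ : Γ, lb γ p o x := by
  obtain ⟨T, hT⟩ := ev_fin d hK x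
  unfold sp
  rw [finsum_lb cs hT.self_of_nhds, Finset.sum_congr rfl fun c _ => finsum_lb (K := K)
    (q := fun o x => if col o = c then p o x else 0) (fun o x k => by simp [cs o x k])
      hT.self_of_nhds o, Finset.sum_comm]
  simp [lb]

theorem le_fs (d : Deck X Γ) (hK : IsCompact K) (cs : Cs p K) (h : ∀ o x, 0 ≤ p o x) (k : x ∈ K) :
    p o x ≤ ∑ᶠ γ : Γ, lb γ p o x := by
  obtain ⟨T, hT⟩ := ev_fin d hK x
  rw [finsum_lb cs hT.self_of_nhds]
  simpa only [lb_one] using Finset.single_le_sum (f := fun γ => lb γ p o x) (fun γ _ => h _ _)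
    (hT.self_of_nhds 1 (by simpa using k))

theorem fs_fi (cs : Cs a K) {T : Finset Γ} (hT : ∀ γ : Γ, γ⁻¹ • x ∈ K → γ ∈ T) (g : Fld n X) :
    ∑ᶠ γ : Γ, fi g (lb γ a o) x = ∑ γ ∈ T, fi g (lb γ a o) x :=
  finsum_eq_sum_of_support_subset _ fun γ k => hT γ (by_contra fun e => k (by
    simp only [fi, lb, cs _ _ e, mul_zero, div_zero]))

theorem amp_mono (d : Deck X Γ) (hK : IsCompact K) (h : Amp F K g a ε)
    (le : ∀ o u x, ip (g' o) u u x ≤ ip (g o) u u x) : Amp F K g' a ε :=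
  ⟨h.pu, h.cs, h.nn, fun o x => by
    obtain ⟨T, hT⟩ := ev_fin d hK x
    refine le_trans ?_ (h.en o x)
    rw [fs_fi h.cs hT.self_of_nhds, fs_fi h.cs hT.self_of_nhds]
    exact Finset.sum_le_sum fun γ _ => div_le_div_of_nonneg_right (le _ _ _)
      (mul_nonneg zero_le_four (h.nn _ _))⟩

theorem ip_zero {u : X → ℝ} (h : ∀ y, 0 ≤ u y) (e : u x = 0) (g : Fld n X) : ip g u u x = 0 := by
  simp [ip, pd_of_isLocalMin (u := u) (x := x) (.of_forall fun y => e.trans_le (h y))]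

/-- the prices for the Fisher information -/
theorem prices (d : Deck X Γ) (hK : IsCompact K) {v : F.Ω → Fin n → X → ℝ} (S : Sta F g v)
    (h : Amp F K g a ε) (ε0 : 0 < ε) {τ : ℝ} (τ0 : 0 < τ) : ∃ ξ : F.Ω → X → ℝ, Tr ξ ∧
      (∀ o, Smooth (ξ o)) ∧ (∀ o, ∀ x ∈ K, 0 ≤ ξ o x ∧ ξ o x ≤ 1 ∧
        ip (g o) (a o) (a o) x / (4 * (a o x + τ) * ε ^ 2) ≤ 1 ∧ Lv (g o) (v o) (ξ o) x ≤
          ξ o x - ip (g o) (a o) (a o) x / (4 * (a o x + τ) * ε ^ 2)) ∧
      ∀ o x, ∑ᶠ γ : Γ, lb γ (fun o => K.indicator (ξ o)) o x ≤ 2 := by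
  have a0 : ∀ o x, 0 < 4 * (a o x + τ) * ε ^ 2 := fun o x => by have := h.nn o x; positivity
  have cs : Cs (fun o x => ip (g o) (a o) (a o) x / (4 * (a o x + τ) * ε ^ 2)) K := fun o x k => by
    simp only [ip_zero (h.nn o) (h.cs o x k), zero_div]
  have p0 := fun o x => div_nonneg ((S.met o).ip_nonneg (a o) x) (a0 o x).le
  have p1 : ∀ o x, ∑ᶠ γ : Γ, lb γ (fun o x => ip (g o) (a o) (a o) x / (4 * (a o x + τ) * ε ^ 2)) o x
      ≤ 1 := fun o x => by
    obtain ⟨T, hT⟩ := ev_fin d hK x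
    have k := (div_le_one (by positivity)).2 (h.en o x)
    rw [fs_fi h.cs hT.self_of_nhds, Finset.sum_div] at k
    rw [finsum_lb cs hT.self_of_nhds]
    refine (Finset.sum_le_sum fun γ _ => ?_).trans k
    have e := congrFun ((d.cm γ⁻¹).ip (g (γ⁻¹ • o)) (a (γ⁻¹ • o)) (a (γ⁻¹ • o))) x
    simp only [S.rg.inv γ⁻¹ o] at e
    rw [fi, div_div, lb, lb, show ip (g o) (lb γ a o) (lb γ a o) x = _ from e]
    rcases (h.nn (γ⁻¹ • o) (γ⁻¹ • x)).eq_or_lt with q | q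
    · simp only [ip_zero (h.nn _) q.symm, zero_div, le_refl]
    · exact div_le_div_of_nonneg_left ((S.met _).ip_nonneg _ _) (by positivity) (by gcongr; linarith)
  obtain ⟨ξ, x1, x2, x3, x4⟩ := price X Γ d F g v _ K S.rg.inv S.rg.tr S.met
    (fun i γ o x => congrFun (S.rv.inv γ o x) i) (fun i => S.rv.tr.map fun _ b => b i) S.cc
    ((S.rg.tr.prod h.pu.tr).of_germ fun o o' x q => by
      have e : a o =ᶠ[𝓝 x] a o' := q.mono fun _ => congrArg Prod.snd
      rw [ip_congr e e, e.self_of_nhds]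
      simp only [ip, up, mat, show g o x = g o' x from congrArg Prod.fst q.self_of_nhds])
    (fun o => CD.div ((S.met o).sm_ip (h.pu.sm o) (h.pu.sm o)) (CD.mul (CD.mul cd_const
      (CD.add (h.pu.sm o) cd_const)) cd_const) fun x => (a0 o x).ne') hK cs p0 p1
  exact ⟨ξ, x1, x2, fun o x k => ⟨(x3 o x k).1, (x3 o x k).2.1, (le_fs d hK cs p0 k).trans (p1 o x),
    (x3 o x k).2.2⟩, x4⟩

/-- the position of `a` on the grid -/
def th (t₀ β a : ℝ) (j : ℕ) : ℝ := Real.log ((a + t₀ / 4) / t₀) / β - j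

theorem th_zero {t₀ β r : ℝ} (h0 : 0 < t₀) (b0 : 0 < β) (hr : β * r ≤ 1) (j : ℕ) : th t₀ β 0 j < -r := by
  rw [th, zero_add, div_div_cancel_left' h0.ne', Real.log_inv, sub_lt_iff_lt_add, div_lt_iff₀ b0]
  have : 1 < Real.log 4 := (Real.lt_log_iff_exp_lt (by norm_num)).2
    (Real.exp_one_lt_three.trans (by norm_num))
  nlinarith [mul_nonneg (j.cast_nonneg (α := ℝ)) b0.le]

/-- **one round**: the moves for all the colours and all the points of the grid -/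
theorem rnd (mv : MOV n) {s : ℝ} (hs : 0 < s) : ∃ C ≥ (1 : ℝ), ∀ r ≥ (1 : ℝ), ∀ t₀ > (0 : ℝ),
    ∀ β > (0 : ℝ), β * (r + 6) ≤ 1 → ∃ ε₀ > (0 : ℝ), ∀ ε > (0 : ℝ), ε ≤ ε₀ →
    ∀ (X Γ : Type) [Mf0 n X] [Group Γ] [MulAction Γ X] (g₀ : Fld n X) (χ : X → ℝ), Geo Γ g₀ χ →
    ∀ (F : Fr Γ) (K D : Set X) (N : ℕ) (col : F.Ω → Fin N) (δ : ℝ) (g : F.Ω → Fld n X)
      (v : F.Ω → Fin n → X → ℝ) (Q a : F.Ω → X → ℝ), IsCompact K → IsCompact D → K ⊆ interior D →
      (∀ c, IsClopen {o | col o = c} ∧ Sep Γ {o | col o = c} D) → 0 ≤ δ → δ ≤ 1 / 2 →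
      Gs F g₀ g v Q → Amp F K g a ε → ∃ ξ : Fin N → F.Ω → X → ℝ,
        (∀ c o x, 0 ≤ ξ c o x ∧ ξ c o x ≤ 1) ∧ (∀ o x, ∑ c, ξ c o x ≤ 2) ∧ ∀ c j,
        ∃ (g' : F.Ω → Fld n X) (v' : F.Ω → Fin n → X → ℝ) (Q' T : F.Ω → X → ℝ), Gs F g₀ g' v' Q' ∧
          Amp F K g' a ε ∧ Rs F T ∧ ∀ o x, (∀ u, gn (g' o) u x ≤ gn (g o) u x) ∧
          gn (g' o) (T o) x ≤ ε / β ∧ (x ∉ Un Γ {o | col o = c} K o → T o x = -r) ∧
          |T o x - cl r (th t₀ β (sp col c a o x) j)| ≤ 1 / 2 ∧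
          (r + 3 ≤ th t₀ β (sp col c a o x) j → T o x = r) ∧
          md s δ g₀ (g' o) (v' o) (Q' o) x ≤ md s δ g₀ (g o) (v o) (Q o) x *
            if |th t₀ β (sp col c a o x) j| ≤ r + 6 then C * √(1 + 12 * ξ c o x / gd t₀ β j)
            else 1 := by
  obtain ⟨C, C1, hC⟩ := mv s hs
  refine ⟨C, C1, fun r r1 t₀ h0 β b0 b1 => ?_⟩
  obtain ⟨L₁, hL⟩ := hC r r1 (1 + 12 / t₀)
  refine ⟨β / max L₁ 1, by positivity, fun ε ε0 ε1 X Γ _ _ _ g₀ χ G F K D N col δ g v Q a hK hD KD hc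
    δ0 δ1 S h => ?_⟩
  rw [le_div_iff₀ (by positivity), mul_comm, ← le_div_iff₀ ε0] at ε1
  obtain ⟨ξ, x1, x2, x3, x4⟩ := prices G.deck hK S.toSta h ε0 (τ := t₀ / 4) (by positivity)
  have cξ : Cs (fun o => K.indicator (ξ o)) K := fun o x k => indicator_of_notMem k _
  have sK := fun c => (hc c).2.mono Subset.rfl (KD.trans interior_subset)
  refine ⟨fun c => sp col c fun o => K.indicator (ξ o), fun c o x => ⟨sp_nonneg fun o x =>
    indicator_nonneg (fun y k => (x3 o y k).1) x, ?_⟩, fun o x =>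
      (sum_sp G.deck hK cξ).trans_le (x4 o x), fun c j => ?_⟩
  · by_cases q : x ∈ Un Γ {o | col o = c} K o
    · obtain ⟨γ, q, k⟩ := q
      exact ((sp_on cξ (sK c) q k).trans (indicator_of_mem k _)).trans_le (x3 _ _ k).2.1
    · exact (sp_off cξ q).trans_le zero_le_one
  have u0 : ∀ o x, 0 < a o x + t₀ / 4 := fun o x => by have := h.nn o x; positivity
  have off : ∀ o, ∀ x ∉ K, th t₀ β (a o x) j < -(r + 6) := fun o x k => by
    rw [h.cs o x k]; exact th_zero h0 b0 b1 j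
  have t0 := gd_ge h0 b0 j
  have t1 := h0.trans_le t0
  obtain ⟨g', v', Q', T, S', sT, le, sl, o1, o2⟩ := hL (β / ε) ((le_max_left _ _).trans ε1)
    (by positivity) X Γ g₀ G.deck G.riem.met G.inv F K D _ δ g v Q (fun o x => th t₀ β (a o x) j)
    (fun o x => 1 + 12 * ξ o x / gd t₀ β j) hK hD KD (hc c).1 (hc c).2 δ0 δ1 S
    (h.pu.tr.map fun _ b => th t₀ β b j) (x1.map fun _ b => 1 + 12 * b / gd t₀ β j)
    (fun o => CD.sub (CD.div_const (CD.log (CD.div_const (CD.add (h.pu.sm o) cd_const) _)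
      fun x => (div_pos (u0 o x) h0).ne') _) cd_const)
    (fun o => CD.add cd_const (CD.div_const (CD.mul cd_const (x2 o)) _)) off fun o x q => by
      have k : x ∈ K := by_contra fun k => (off o x k).not_ge (neg_le_of_abs_le q)
      obtain ⟨y0, y1, y2, y3⟩ := x3 o x k
      have u := u0 o x
      have e : (β / ε * gn (g o) (fun x => th t₀ β (a o x) j) x) ^ 2 ≤
          12 / gd t₀ β j * (ip (g o) (a o) (a o) x / (4 * (a o x + t₀ / 4) * ε ^ 2)) := by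
        rw [gn_comp (φ := fun b => th t₀ β b j) ((((((hasDerivAt_id' (a o x)).add_const
          (t₀ / 4)).div_const t₀).log (div_pos u h0).ne').div_const β).sub_const _)
          ((h.pu.sm o).diff x), mul_pow, mul_pow, sq_abs, (S.met o).gn_sq]
        calc _ = 12 / (3 * (a o x + t₀ / 4)) *
              (ip (g o) (a o) (a o) x / (4 * (a o x + t₀ / 4) * ε ^ 2)) := by field_simp; ring
          _ ≤ _ := by
            have := (S.met o).ip_nonneg (a o) x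
            gcongr
            exact gd_win h0 b0 u b1 q
      have e1 : 12 / gd t₀ β j ≤ 12 / t₀ := by gcongr
      have e2 : 0 < 12 / gd t₀ β j := by positivity
      have e3 := Lv_lin (v := v o) (S.met o) (Smooth.c2 (cd_const (c := (1 : ℝ))) x) ((x2 o).c2 x) 1
        (12 / gd t₀ β j)
      simp only [Lv_const, mul_one, mul_zero, zero_add, div_mul_eq_mul_div] at e3
      simp only [e3]
      simp only [← div_mul_eq_mul_div]
      refine ⟨by nlinarith, by nlinarith, le_of_sq_le_sq (by nlinarith) (by positivity), by nlinarith⟩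
  refine ⟨g', v', Q', T, S', amp_mono G.deck hK h le, sT, fun o x =>
    ⟨fun u => Real.sqrt_le_sqrt (le o u x), by simpa using sl o x, fun q => (o1 o x q).1, ?_⟩⟩
  by_cases q : x ∈ Un Γ {o | col o = c} K o
  · obtain ⟨γ, q, k⟩ := q
    have := o2 _ q _ k
    have e := (G.rn_md S.toSta S.rq.toRn s δ).inv γ⁻¹ o x
    have e' := (G.rn_md S'.toSta S'.rq.toRn s δ).inv γ⁻¹ o x
    beta_reduce at e e'
    rw [sT.inv, e, e'] at this
    simpa only [sp_on cξ (sK c) q k, sp_on h.cs (sK c) q k, indicator_of_mem k] using this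
  · have := th_zero h0 b0 b1 j
    rw [sp_off h.cs q, (o1 o x q).1, (o1 o x q).2, if_neg fun k => this.not_ge (neg_le_of_abs_le k),
      cl, max_eq_left ((min_le_right _ _).trans (by linarith))]
    exact ⟨by simp, fun k => by linarith, by simp⟩

end Vale.Agent.P223G
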